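import Mathlib

/-!
# The zone inequality for two stars on opposite sides of the centre (P040, two-page drawings)

Abstract charging argument: an inequality between raise costs of two sign words read from
opposite ends of an interval and the number of mismatching pairs.
-/

open Finset

namespace Vale.Agent.Lib.P040.CL

lemma rank_sum (J : Finset ℕ) (π : ℕ → ℕ) (hπ : Set.InjOn π (J : Set ℕ)) :
    2 * ∑ i ∈ J, ((J.filter (fun i' => π i < π i')).card : ℤ)
      = (J.card : ℤ) * ((J.card : ℤ) - 1) := by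
  have h1 : ∑ i ∈ J, ((J.filter (fun i' => π i < π i')).card : ℤ)
      = ∑ i ∈ J, ∑ i' ∈ J, (if π i < π i' then (1:ℤ) else 0) := by
    refine sum_congr rfl fun i _ => ?_
    rw [card_filter]; push_cast; rfl
  have h2 : ∑ i ∈ J, ∑ i' ∈ J, (if π i < π i' then (1:ℤ) else 0)
      = ∑ i ∈ J, ∑ i' ∈ J, (if π i' < π i then (1:ℤ) else 0) := by
    rw [sum_comm]
  have h3 : ∑ i ∈ J, ∑ i' ∈ J, ((if π i < π i' then (1:ℤ) else 0)
        + (if π i' < π i then (1:ℤ) else 0) + (if i = i' then (1:ℤ) else 0))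
      = (J.card:ℤ) * J.card := by
    have key : ∀ i ∈ J, ∀ i' ∈ J, ((if π i < π i' then (1:ℤ) else 0)
        + (if π i' < π i then (1:ℤ) else 0) + (if i = i' then (1:ℤ) else 0)) = 1 := by
      intro i hi i' hi'
      by_cases h : i = i'
      · subst h; simp
      · have hne : π i ≠ π i' := fun e => h (hπ hi hi' e)
        rcases lt_or_gt_of_ne hne with h4 | h4
        · simp [h, h4, not_lt.2 h4.le]
        · simp [h, h4, not_lt.2 h4.le]
    calc _ = ∑ i ∈ J, ∑ i' ∈ J, (1:ℤ) :=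
          sum_congr rfl fun i hi => sum_congr rfl fun i' hi' => key i hi i' hi'
      _ = _ := by simp
  have h4 : ∑ i ∈ J, ∑ i' ∈ J, (if i = i' then (1:ℤ) else 0) = J.card := by
    refine (sum_congr rfl fun i hi => ?_).trans (by simp : ∑ i ∈ J, (1:ℤ) = J.card)
    simp [sum_ite_eq, hi]
  simp only [sum_add_distrib] at h3
  rw [h1]
  nlinarith [h2, h3, h4]

lemma card_le_of_rank (J : Finset ℕ) (π : ℕ → ℕ) (hπ : Set.InjOn π (J : Set ℕ)) (U : ℤ)
    (h : ∀ i ∈ J, ((J.filter (fun i' => π i < π i')).card : ℤ) < U) (hne : J.Nonempty) :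
    (J.card : ℤ) ≤ U := by
  obtain ⟨i0, hi0, hmin⟩ := J.exists_min_image π hne
  have h1 : J.filter (fun i' => π i0 < π i') = J.erase i0 := by
    ext i'
    simp only [mem_filter, mem_erase]
    constructor
    · rintro ⟨h1, h2⟩
      exact ⟨fun e => by subst e; exact lt_irrefl _ h2, h1⟩
    · rintro ⟨h1, h2⟩
      exact ⟨h2, lt_of_le_of_ne (hmin i' h2) (fun e => h1 (hπ h2 hi0 e.symm))⟩
  have h0 := h i0 hi0
  rw [h1, card_erase_of_mem hi0] at h0
  have h2 : 1 ≤ J.card := card_pos.2 hne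
  have h3 : ((J.card - 1 : ℕ) : ℤ) = (J.card : ℤ) - 1 := by
    rw [Nat.cast_sub h2]; simp
  rw [h3] at h0
  omega

lemma consec (y : ℤ) : 0 ≤ y * (y + 1) := by
  rcases le_or_gt 0 y with h | h
  · positivity
  · have : y + 1 ≤ 0 := by omega
    nlinarith

section side

variable (A : Finset ℕ) (π : ℕ → ℕ) (a e : ℕ → ℤ) (T1 T2 : ℕ) (G : ℤ)

/-- own count of a position in the word read in the order `π` -/
def same (i : ℕ) : ℤ :=
  (if a i = 1 then (T1 : ℤ) else T2) + (A.filter (fun i' => π i < π i' ∧ a i' = a i)).card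

/-- other count of a position -/
def diff (i : ℕ) : ℤ :=
  (if a i = 1 then (T2 : ℤ) else T1) + (A.filter (fun i' => π i < π i' ∧ a i' ≠ a i)).card

/-- the raise at a position -/
def dS (i : ℕ) : ℤ := min (diff A π a T1 T2 i) (max 0 (G - same A π a T1 T2 i))

/-- positions good for `a` that get a raise -/
def JS : Finset ℕ := A.filter (fun i => a i = e i ∧ same A π a T1 T2 i < G)

/-- partners of opposite sign that are bad for `a`, further on in the reading order -/
def Bet (i : ℕ) : ℕ := (A.filter (fun i' => π i < π i' ∧ e i' ≠ e i ∧ a i' ≠ e i')).card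

/-- number of positions further on in the reading order -/
def tau (i : ℕ) : ℕ := (A.filter (fun i' => π i < π i')).card

/-- the reduction at a position -/
def rho (C : ℤ) (i : ℕ) : ℤ := max 0 (C - tau A π i)

variable {A π a e T1 T2 G}

lemma chan (hπ : Set.InjOn π (A : Set ℕ)) (ha : ∀ i ∈ A, a i = 1 ∨ a i = -1)
    (he : ∀ i ∈ A, e i = 1 ∨ e i = -1) (s : ℤ) (hs : s = 1 ∨ s = -1) (T T' : ℕ)
    (hT : (s = 1 → T = T1 ∧ T' = T2) ∧ (s = -1 → T = T2 ∧ T' = T1))
    (C : ℤ) (hC : C = G - T1 - T2) :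
    let J := (JS A π a e T1 T2 G).filter (fun i => a i = s)
    2 * ∑ i ∈ J, dS A π a T1 T2 G i ≤ 2 * (J.card : ℤ) * (G - T) - (J.card : ℤ) * ((J.card : ℤ) - 1)
        - 2 * ∑ i ∈ J, (Bet A π a e i : ℤ) - 2 * ∑ i ∈ J, rho A π C i
      ∧ (J.card = 0 ∨ (J.card : ℤ) ≤ G - T) := by
  intro J
  have hJA : ∀ i ∈ J, i ∈ A ∧ a i = e i ∧ same A π a T1 T2 i < G ∧ a i = s := by
    intro i hi
    simp only [J, JS, mem_filter] at hi
    exact ⟨hi.1.1, hi.1.2.1, hi.1.2.2, hi.2⟩
  have hJsub : (J : Set ℕ) ⊆ A := fun i hi => (hJA i hi).1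
  have hinj : Set.InjOn π (J : Set ℕ) := hπ.mono hJsub
  -- the base values
  have hbase : ∀ i, a i = s → ((if a i = 1 then (T1 : ℤ) else T2) = T ∧
      (if a i = 1 then (T2 : ℤ) else T1) = T') := by
    intro i hi
    rcases hs with h | h
    · obtain ⟨h1, h2⟩ := hT.1 h
      simp [hi, h, h1, h2]
    · obtain ⟨h1, h2⟩ := hT.2 h
      have : (-1 : ℤ) ≠ 1 := by norm_num
      simp [hi, h, h1, h2]
  -- key decomposition of the own count
  have hrank : ∀ i ∈ J, ((A.filter (fun i' => π i < π i' ∧ a i' = a i)).card : ℤ)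
      = ((J.filter (fun i' => π i < π i')).card : ℤ) + (Bet A π a e i : ℤ) := by
    intro i hi
    obtain ⟨hiA, hae, hsame, has⟩ := hJA i hi
    set B := A.filter (fun i' => π i < π i' ∧ a i' = a i) with hB
    have h1 := card_filter_add_card_filter_not (s := B) (fun i' => e i' = s)
    have h2 : B.filter (fun i' => e i' = s) = J.filter (fun i' => π i < π i') := by
      ext i'
      simp only [hB, mem_filter, J, JS]
      constructor
      · rintro ⟨⟨h3, h4, h5⟩, h6⟩
        refine ⟨⟨⟨h3, ?_, ?_⟩, by rw [h5, has]⟩, h4⟩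
        · rw [h5, has, h6]
        · have hle : same A π a T1 T2 i' ≤ same A π a T1 T2 i := by
            unfold same
            have h7 : a i' = a i := h5
            rw [h7]
            have h8 : (A.filter (fun i'' => π i' < π i'' ∧ a i'' = a i)).card ≤
                (A.filter (fun i'' => π i < π i'' ∧ a i'' = a i)).card := by
              apply card_le_card
              intro j hj
              simp only [mem_filter] at hj ⊢
              exact ⟨hj.1, lt_trans h4 hj.2.1, hj.2.2⟩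
            have h9 : ((A.filter (fun i'' => π i' < π i'' ∧ a i'' = a i)).card : ℤ) ≤
                (A.filter (fun i'' => π i < π i'' ∧ a i'' = a i)).card := by exact_mod_cast h8
            linarith
          exact lt_of_le_of_lt hle hsame
      · rintro ⟨⟨⟨h3, h4, -⟩, h5⟩, h6⟩
        refine ⟨⟨h3, h6, by rw [h5, has]⟩, ?_⟩
        rw [← h4, h5]
    have h3 : (B.filter (fun i' => ¬ e i' = s)).card = Bet A π a e i := by
      unfold Bet
      congr 1
      ext i'
      simp only [hB, mem_filter]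
      have heis : e i = s := by rw [← hae, has]
      constructor
      · rintro ⟨⟨h3, h4, h5⟩, h6⟩
        refine ⟨h3, h4, by rw [heis]; exact h6, ?_⟩
        rw [h5, has]
        exact fun h => h6 h.symm
      · rintro ⟨h3, h4, h5, h6⟩
        rw [heis] at h5
        refine ⟨⟨h3, h4, ?_⟩, h5⟩
        rw [has]
        rcases he i' h3 with h7 | h7 <;> rcases ha i' h3 with h8 | h8 <;> rcases hs with h9 | h9 <;>
          simp_all
    rw [h2] at h1
    rw [← h3, ← h1]
    push_cast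
    ring
  -- pointwise bound
  have hpt : ∀ i ∈ J, dS A π a T1 T2 G i ≤ (G - T) - ((J.filter (fun i' => π i < π i')).card : ℤ)
      - (Bet A π a e i : ℤ) - rho A π C i := by
    intro i hi
    obtain ⟨hiA, hae, hsame, has⟩ := hJA i hi
    have hr := hrank i hi
    obtain ⟨hb1, hb2⟩ := hbase i has
    have htau : (tau A π i : ℤ) = ((A.filter (fun i' => π i < π i' ∧ a i' = a i)).card : ℤ)
        + ((A.filter (fun i' => π i < π i' ∧ a i' ≠ a i)).card : ℤ) := by
      unfold tau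
      have h1 := card_filter_add_card_filter_not (s := A.filter (fun i' => π i < π i'))
        (fun i' => a i' = a i)
      rw [← h1, filter_filter, filter_filter]
      push_cast
      rfl
    have hsame' : same A π a T1 T2 i = T + ((A.filter (fun i' => π i < π i' ∧ a i' = a i)).card : ℤ) := by
      unfold same; rw [hb1]
    have hdiff' : diff A π a T1 T2 i = T' + ((A.filter (fun i' => π i < π i' ∧ a i' ≠ a i)).card : ℤ) := by
      unfold diff; rw [hb2]
    have hTT : (T : ℤ) + T' = T1 + T2 := by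
      rcases hs with h | h
      · obtain ⟨h1, h2⟩ := hT.1 h
        subst h1; subst h2; rfl
      · obtain ⟨h1, h2⟩ := hT.2 h
        subst h1; subst h2; ring
    have hC' : C = G - T - T' := by rw [hC]; linarith
    have hle1 : dS A π a T1 T2 G i ≤ G - same A π a T1 T2 i := by
      unfold dS
      rw [max_eq_right (by linarith : (0:ℤ) ≤ G - same A π a T1 T2 i)]
      exact min_le_right _ _
    have hle2 : dS A π a T1 T2 G i ≤ diff A π a T1 T2 i := by
      unfold dS
      exact min_le_left _ _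
    unfold rho
    rcases le_or_gt (C - tau A π i) 0 with hc | hc
    · rw [max_eq_left hc]
      rw [hsame'] at hle1
      linarith
    · rw [max_eq_right hc.le]
      rw [hdiff'] at hle2
      linarith
  have hsum : ∑ i ∈ J, dS A π a T1 T2 G i ≤ ∑ i ∈ J, ((G - T)
      - ((J.filter (fun i' => π i < π i')).card : ℤ)
      - (Bet A π a e i : ℤ) - rho A π C i) := sum_le_sum hpt
  have hrs := rank_sum J π hinj
  constructor
  · simp only [sum_sub_distrib, sum_const, nsmul_eq_mul] at hsum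
    nlinarith [hsum, hrs]
  · rcases J.eq_empty_or_nonempty with h0 | hne
    · left; simp [h0]
    · right
      apply card_le_of_rank J π hinj _ _ hne
      intro i hi
      obtain ⟨hiA, hae, hsame, has⟩ := hJA i hi
      have hr := hrank i hi
      obtain ⟨hb1, hb2⟩ := hbase i has
      have hsame' : same A π a T1 T2 i = T + ((A.filter (fun i' => π i < π i' ∧ a i' = a i)).card : ℤ) := by
        unfold same; rw [hb1]
      have : (0:ℤ) ≤ Bet A π a e i := by positivity
      rw [hsame'] at hsame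
      linarith

lemma rho_nonneg (C : ℤ) (i : ℕ) : 0 ≤ rho A π C i := le_max_left _ _

lemma ends (hπ : Set.InjOn π (A : Set ℕ)) (C : ℤ) (hC : C = G - T1 - T2) (C' : ℕ)
    (hC' : (C' : ℤ) = max 0 C) (E : Finset ℕ) (hEA : E ⊆ A)
    (hEup : ∀ i ∈ E, ∀ i' ∈ A, π i < π i' → i' ∈ E) (hEc : E.card = C')
    (hEe : ∀ i ∈ E, a i = e i) :
    (C' : ℤ) * ((C' : ℤ) + 1) ≤ 2 * ∑ i ∈ JS A π a e T1 T2 G, rho A π C i := by
  have hnn : ∀ i ∈ JS A π a e T1 T2 G, 0 ≤ rho A π C i := fun i _ => rho_nonneg C i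
  rcases Nat.eq_zero_or_pos C' with h0 | hpos
  · subst h0
    have := sum_nonneg hnn
    simp only [Nat.cast_zero, zero_mul]
    linarith
  have hCC : C = C' := by
    have : (0:ℤ) < C' := by exact_mod_cast hpos
    rcases le_total C 0 with h | h
    · rw [max_eq_left h] at hC'; omega
    · rw [max_eq_right h] at hC'; omega
  have htau : ∀ i ∈ E, tau A π i = (E.filter (fun i' => π i < π i')).card := by
    intro i hi
    unfold tau
    congr 1
    ext i'
    simp only [mem_filter]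
    constructor
    · rintro ⟨h1, h2⟩; exact ⟨hEup i hi i' h1 h2, h2⟩
    · rintro ⟨h1, h2⟩; exact ⟨hEA h1, h2⟩
  have hlt : ∀ i ∈ E, (tau A π i : ℤ) < C := by
    intro i hi
    rw [htau i hi, hCC]
    have h1 : (E.filter (fun i' => π i < π i')).card < E.card := by
      apply card_lt_card
      refine ⟨filter_subset _ _, fun h => ?_⟩
      have := h hi
      simp only [mem_filter] at this
      exact lt_irrefl _ this.2
    rw [hEc] at h1
    exact_mod_cast h1
  have hsub : E ⊆ JS A π a e T1 T2 G := by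
    intro i hi
    have hiA := hEA hi
    simp only [JS, mem_filter]
    refine ⟨hiA, hEe i hi, ?_⟩
    have h1 := hlt i hi
    unfold same
    have h2 : ((A.filter (fun i' => π i < π i' ∧ a i' = a i)).card : ℤ) ≤ tau A π i := by
      unfold tau
      have : (A.filter (fun i' => π i < π i' ∧ a i' = a i)).card
          ≤ (A.filter (fun i' => π i < π i')).card := by
        apply card_le_card
        intro j hj
        simp only [mem_filter] at hj ⊢
        exact ⟨hj.1, hj.2.1⟩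
      exact_mod_cast this
    have h3 : (0:ℤ) ≤ T1 := by positivity
    have h4 : (0:ℤ) ≤ T2 := by positivity
    split_ifs <;> linarith
  have h1 : ∑ i ∈ E, rho A π C i ≤ ∑ i ∈ JS A π a e T1 T2 G, rho A π C i :=
    sum_le_sum_of_subset_of_nonneg hsub (fun i _ _ => rho_nonneg C i)
  have h2 : ∑ i ∈ E, (C - ((E.filter (fun i' => π i < π i')).card : ℤ))
      ≤ ∑ i ∈ E, rho A π C i := by
    apply sum_le_sum
    intro i hi
    unfold rho
    rw [htau i hi]
    exact le_max_right _ _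
  have h3 := rank_sum E π (hπ.mono (by exact_mod_cast hEA))
  rw [sum_sub_distrib, sum_const, nsmul_eq_mul, hEc] at h2
  rw [hEc] at h3
  have h4 : (C' : ℤ) * C = C' * C' := by rw [hCC]
  nlinarith

lemma side (hπ : Set.InjOn π (A : Set ℕ)) (ha : ∀ i ∈ A, a i = 1 ∨ a i = -1)
    (he : ∀ i ∈ A, e i = 1 ∨ e i = -1) (C : ℤ) (hC : C = G - T1 - T2) (C' : ℕ)
    (hC' : (C' : ℤ) = max 0 C) (E : Finset ℕ) (hEA : E ⊆ A)
    (hEup : ∀ i ∈ E, ∀ i' ∈ A, π i < π i' → i' ∈ E) (hEc : E.card = C')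
    (hEe : ∀ i ∈ E, a i = e i) :
    2 * ∑ i ∈ A.filter (fun i => a i = e i), dS A π a T1 T2 G i
      ≤ (2 * (((JS A π a e T1 T2 G).filter (fun i => a i = 1)).card : ℤ) * (G - T1)
          - (((JS A π a e T1 T2 G).filter (fun i => a i = 1)).card : ℤ)
            * ((((JS A π a e T1 T2 G).filter (fun i => a i = 1)).card : ℤ) - 1))
        + (2 * (((JS A π a e T1 T2 G).filter (fun i => a i = -1)).card : ℤ) * (G - T2)
          - (((JS A π a e T1 T2 G).filter (fun i => a i = -1)).card : ℤ)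
            * ((((JS A π a e T1 T2 G).filter (fun i => a i = -1)).card : ℤ) - 1))
        - 2 * ∑ i ∈ JS A π a e T1 T2 G, (Bet A π a e i : ℤ) - (C' : ℤ) * ((C' : ℤ) + 1)
      ∧ (((JS A π a e T1 T2 G).filter (fun i => a i = 1)).card = 0
          ∨ (((JS A π a e T1 T2 G).filter (fun i => a i = 1)).card : ℤ) ≤ G - T1)
      ∧ (((JS A π a e T1 T2 G).filter (fun i => a i = -1)).card = 0
          ∨ (((JS A π a e T1 T2 G).filter (fun i => a i = -1)).card : ℤ) ≤ G - T2) := by
  have hends := ends (a := a) (e := e) (T1 := T1) (T2 := T2) (G := G) hπ C hC C' hC' E hEA hEup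
    hEc hEe
  set JJ := JS A π a e T1 T2 G with hJJ
  have hsplit : ∀ f : ℕ → ℤ, ∑ i ∈ JJ, f i = ∑ i ∈ JJ.filter (fun i => a i = 1), f i
      + ∑ i ∈ JJ.filter (fun i => a i = -1), f i := by
    intro f
    rw [← sum_filter_add_sum_filter_not JJ (fun i => a i = 1) f]
    congr 1
    apply sum_congr _ (fun _ _ => rfl)
    ext i
    simp only [mem_filter]
    constructor
    · rintro ⟨h1, h2⟩
      refine ⟨h1, ?_⟩
      have hiA : i ∈ A := (mem_filter.1 h1).1
      rcases ha i hiA with h | h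
      · exact absurd h h2
      · exact h
    · rintro ⟨h1, h2⟩
      refine ⟨h1, ?_⟩
      rw [h2]; norm_num
  have hS : ∑ i ∈ A.filter (fun i => a i = e i), dS A π a T1 T2 G i
      ≤ ∑ i ∈ JJ, dS A π a T1 T2 G i := by
    have h1 := sum_filter_add_sum_filter_not (A.filter (fun i => a i = e i))
      (fun i => same A π a T1 T2 i < G) (dS A π a T1 T2 G)
    have h2 : (A.filter (fun i => a i = e i)).filter (fun i => same A π a T1 T2 i < G) = JJ := by
      rw [hJJ]; unfold JS; rw [filter_filter]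
    rw [h2] at h1
    have h3 : ∑ i ∈ (A.filter (fun i => a i = e i)).filter
        (fun i => ¬ same A π a T1 T2 i < G), dS A π a T1 T2 G i ≤ 0 := by
      apply sum_nonpos
      intro i hi
      have h4 := (mem_filter.1 hi).2
      unfold dS
      rw [max_eq_left (by linarith [not_lt.1 h4])]
      exact min_le_right _ _
    linarith
  obtain ⟨h11, h12⟩ := chan (A := A) (π := π) (a := a) (e := e) (T1 := T1) (T2 := T2) (G := G)
    hπ ha he 1 (Or.inl rfl) T1 T2 ⟨fun _ => ⟨rfl, rfl⟩, fun h => by norm_num at h⟩ C hC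
  obtain ⟨h21, h22⟩ := chan (A := A) (π := π) (a := a) (e := e) (T1 := T1) (T2 := T2) (G := G)
    hπ ha he (-1) (Or.inr rfl) T2 T1 ⟨fun h => by norm_num at h, fun _ => ⟨rfl, rfl⟩⟩ C hC
  refine ⟨?_, h12, h22⟩
  have h3 := hsplit (dS A π a T1 T2 G)
  have h4 := hsplit (fun i => (Bet A π a e i : ℤ))
  have h5 := hsplit (rho A π C)
  linarith

end side

/-! ### The two concrete sides -/

/-- own count on the side read from the left end of the interval towards its right end -/
def sameA (A : Finset ℕ) (a : ℕ → ℤ) (t z : ℕ) (i : ℕ) : ℤ :=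
  (if a i = 1 then (t : ℤ) else z) + (A.filter (fun i' => i < i' ∧ a i' = a i)).card

/-- other count, same side -/
def diffA (A : Finset ℕ) (a : ℕ → ℤ) (t z : ℕ) (i : ℕ) : ℤ :=
  (if a i = 1 then (z : ℤ) else t) + (A.filter (fun i' => i < i' ∧ a i' ≠ a i)).card

/-- raise, same side -/
def dA (A : Finset ℕ) (a : ℕ → ℤ) (t z : ℕ) (G : ℤ) (i : ℕ) : ℤ :=
  min (diffA A a t z i) (max 0 (G - sameA A a t z i))

/-- own count on the side read from the right end towards the left end -/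
def sameB (A : Finset ℕ) (b : ℕ → ℤ) (Q w : ℕ) (i : ℕ) : ℤ :=
  (if b i = 1 then (Q : ℤ) else w) + (A.filter (fun j => j < i ∧ b j = b i)).card

/-- other count, other side -/
def diffB (A : Finset ℕ) (b : ℕ → ℤ) (Q w : ℕ) (i : ℕ) : ℤ :=
  (if b i = 1 then (w : ℤ) else Q) + (A.filter (fun j => j < i ∧ b j ≠ b i)).card

/-- raise, other side -/
def dB (A : Finset ℕ) (b : ℕ → ℤ) (Q w : ℕ) (H : ℤ) (i : ℕ) : ℤ :=
  min (diffB A b Q w i) (max 0 (H - sameB A b Q w i))

/-- the mismatching pairs -/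
def Mismatch (A : Finset ℕ) (a b e : ℕ → ℤ) : Finset (ℕ × ℕ) :=
  (A ×ˢ A).filter (fun p => p.1 < p.2 ∧
    ((e p.1 ≠ e p.2 ∧ ¬ (a p.2 ≠ e p.2 ∧ b p.1 ≠ e p.1)) ∨
      (e p.1 = e p.2 ∧ a p.2 ≠ e p.2 ∧ b p.1 ≠ e p.1)))

lemma card_pairs (S T : Finset ℕ) (R : ℕ → ℕ → Prop) [∀ j i, Decidable (R j i)] :
    (((S ×ˢ T).filter (fun p => R p.1 p.2)).card : ℤ)
      = ∑ j ∈ S, ((T.filter (fun i => R j i)).card : ℤ) := by
  rw [card_filter, sum_product]
  push_cast
  refine sum_congr rfl fun j _ => ?_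
  rw [card_filter]
  push_cast
  rfl

lemma card_pairs' (S T : Finset ℕ) (R : ℕ → ℕ → Prop) [∀ j i, Decidable (R j i)] :
    (((S ×ˢ T).filter (fun p => R p.1 p.2)).card : ℤ)
      = ∑ i ∈ T, ((S.filter (fun j => R j i)).card : ℤ) := by
  rw [card_filter, sum_product_right]
  push_cast
  refine sum_congr rfl fun j _ => ?_
  rw [card_filter]
  push_cast
  rfl

lemma pb1 (m1 m2 V c C' : ℤ) (h2 : 0 ≤ m2) (h12 : m2 ≤ m1) (hVc : 0 ≤ V + c)
    (hm : m2 = 0 ∨ m2 ≤ V) (hC' : C' = max 0 (-c)) :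
    2 * m2 * V - m2 * (m2 - 1) ≤ 2 * m1 * V + 2 * c * m1 + C' * (C' + 1) := by
  rcases le_or_gt 0 c with hc | hc
  · have : C' = 0 := by
      rw [hC', max_eq_left (by omega)]
    subst this
    rcases hm with h0 | hle
    · subst h0
      have : 0 ≤ m1 * (V + c) := mul_nonneg h12 hVc
      nlinarith
    · rcases h2.eq_or_lt with h0 | h0
      · subst h0
        have : 0 ≤ m1 * (V + c) := mul_nonneg h12 hVc
        nlinarith
      · have h3 : 0 ≤ m2 * (m2 - 1) := mul_nonneg h2 (by omega)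
        have h4 : 0 ≤ (m1 - m2) * V := mul_nonneg (by omega) (by omega)
        have h5 : 0 ≤ m1 * c := mul_nonneg (by omega) hc
        nlinarith
  · have hC'' : C' = -c := by
      rw [hC', max_eq_right (by omega)]
    subst hC''
    have h3 : 0 ≤ (m1 - m2) * (V + c) := mul_nonneg (by omega) hVc
    have h4 := consec (-c - m2)
    nlinarith

lemma pair_bound (m1 m2 U V c C' J : ℤ) (h1 : 0 ≤ m1) (h2 : 0 ≤ m2) (hUc : 0 ≤ U + c)
    (hVc : 0 ≤ V + c) (hm1 : m1 = 0 ∨ m1 ≤ U) (hm2 : m2 = 0 ∨ m2 ≤ V)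
    (hC' : C' = max 0 (-c)) (hJ : J = max m1 m2) :
    2 * m1 * U - m1 * (m1 - 1) + (2 * m2 * V - m2 * (m2 - 1))
      ≤ 2 * J * (U + V) - J * (J - 1) + 2 * c * J + C' * (C' + 1) := by
  rcases le_total m2 m1 with h | h
  · rw [max_eq_left h] at hJ
    subst hJ
    have := pb1 J m2 V c C' h2 h hVc hm2 hC'
    nlinarith
  · rw [max_eq_right h] at hJ
    subst hJ
    have := pb1 J m1 U c C' h1 h hUc hm1 hC'
    nlinarith

lemma final_arith (t z Q w c p q G H k J I x : ℤ) (hG : G = t + z - c) (hH : H = Q + w - c)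
    (hq : q = G + H + 1 - p) (hk : k = t + z + H) (hx : x = t + Q + p - k) :
    x * (x - 1) + 2 * (q * p - (q - J) * (p - I))
      - (2 * J * ((G - t) + (H - Q)) - J * (J - 1) + 2 * c * J
        + (2 * I * ((G - z) + (H - w)) - I * (I - 1) + 2 * c * I))
      = (x + J - I) * (x + J - I - 1) := by
  subst_vars
  ring

lemma mem_JS {A : Finset ℕ} {π : ℕ → ℕ} {a e : ℕ → ℤ} {T1 T2 : ℕ} {G : ℤ} {i : ℕ} :
    i ∈ JS A π a e T1 T2 G ↔ i ∈ A ∧ a i = e i ∧ same A π a T1 T2 i < G := by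
  simp [JS]

lemma pi_lt {h i j : ℕ} (hi : i < h) (hj : j < h) : h - i < h - j ↔ j < i := by omega

lemma dA_eq (A : Finset ℕ) (a : ℕ → ℤ) (t z : ℕ) (G : ℤ) (i : ℕ) :
    dA A a t z G i = dS A (fun i => i) a t z G i := rfl

lemma dB_eq (A : Finset ℕ) (h : ℕ) (hA : ∀ i ∈ A, i < h) (b : ℕ → ℤ) (Q w : ℕ) (H : ℤ) (i : ℕ)
    (hi : i ∈ A) : dB A b Q w H i = dS A (fun i => h - i) b Q w H i := by
  have h1 : sameB A b Q w i = same A (fun i => h - i) b Q w i := by
    unfold sameB same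
    congr 3
    apply filter_congr
    intro j hj
    simp only
    rw [pi_lt (hA i hi) (hA j hj)]
  have h2 : diffB A b Q w i = diff A (fun i => h - i) b Q w i := by
    unfold diffB diff
    congr 3
    apply filter_congr
    intro j hj
    simp only
    rw [pi_lt (hA i hi) (hA j hj)]
  unfold dB dS
  rw [h1, h2]

lemma arith_close (t z Q w G H k p q m1 m2 n1 n2 J' I' C' Sa Sb Ba Bb Mism : ℤ)
    (h_t : 0 ≤ t) (h_z : 0 ≤ z) (h_Q : 0 ≤ Q) (h_w : 0 ≤ w)
    (ht1 : t + z + H = k) (ht2 : Q + w + G = k) (hpq : q + p = G + H + 1)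
    (hC : C' = max 0 (G - t - z))
    (hm1n : 0 ≤ m1) (hm2n : 0 ≤ m2) (hn1n : 0 ≤ n1) (hn2n : 0 ≤ n2)
    (h1 : m1 ≤ J') (h2 : m2 ≤ J') (h3 : n1 ≤ I') (h4 : n2 ≤ I') (hJ'q : J' ≤ q) (hI'p : I' ≤ p)
    (hma1 : m1 = 0 ∨ m1 ≤ G - t) (hma2 : n1 = 0 ∨ n1 ≤ G - z)
    (hmb1 : m2 = 0 ∨ m2 ≤ H - Q) (hmb2 : n2 = 0 ∨ n2 ≤ H - w)
    (hSa : 2 * Sa ≤ (2 * m1 * (G - t) - m1 * (m1 - 1)) + (2 * n1 * (G - z) - n1 * (n1 - 1))
      - 2 * Ba - C' * (C' + 1))
    (hSb : 2 * Sb ≤ (2 * m2 * (H - Q) - m2 * (m2 - 1)) + (2 * n2 * (H - w) - n2 * (n2 - 1))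
      - 2 * Bb - C' * (C' + 1))
    (hcov : q * p - (q - J') * (p - I') ≤ Mism + Ba + Bb) :
    2 * (Sa + Sb) ≤ (t + Q + p - k) * (t + Q + p - k - 1) + 2 * Mism := by
  have hCc : C' = max 0 (-(t + z - G)) := by
    rw [hC]; congr 1; ring
  have hpb1 := pair_bound m1 m2 (G - t) (H - Q) (t + z - G) C' (max m1 m2) hm1n hm2n
    (by linarith) (by linarith) hma1 hmb1 hCc rfl
  have hpb2 := pair_bound n1 n2 (G - z) (H - w) (t + z - G) C' (max n1 n2) hn1n hn2n
    (by linarith) (by linarith) hma2 hmb2 hCc rfl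
  have hJle : max m1 m2 ≤ J' := max_le h1 h2
  have hIle : max n1 n2 ≤ I' := max_le h3 h4
  generalize max m1 m2 = J at *
  generalize max n1 n2 = I at *
  have hfa := final_arith t z Q w (t + z - G) p q G H k J I
    (t + Q + p - k) (by ring) (by linarith) (by linarith) (by linarith) rfl
  have hcons := consec (t + Q + p - k + J - I - 1)
  have hmono : (q - J') * (p - I') ≤ (q - J) * (p - I) := by
    apply mul_le_mul
    · linarith
    · linarith
    · linarith
    · linarith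
  nlinarith [hSa, hSb, hpb1, hpb2, hfa, hcons, hmono, hcov]

lemma pairs_count (A Ja Jb : Finset ℕ) (a b e : ℕ → ℤ) (hJa : ∀ i ∈ Ja, a i = e i)
    (hJb : ∀ i ∈ Jb, b i = e i) :
    (((A.filter (fun i => e i = 1)).card : ℤ) * (A.filter (fun i => e i = -1)).card
      - (((A.filter (fun i => e i = 1)).card : ℤ) - ((A.filter (fun i => e i = 1)) ∩ (Ja ∪ Jb)).card)
        * (((A.filter (fun i => e i = -1)).card : ℤ)
            - ((A.filter (fun i => e i = -1)) ∩ (Ja ∪ Jb)).card))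
      ≤ (Mismatch A a b e).card
        + ((Ja ×ˢ A).filter (fun p => p.1 < p.2 ∧ e p.2 ≠ e p.1 ∧ a p.2 ≠ e p.2)).card
        + ((A ×ˢ Jb).filter (fun p => p.1 < p.2 ∧ e p.1 ≠ e p.2 ∧ b p.1 ≠ e p.1)).card := by
  set P := A.filter (fun i => e i = 1) with hP
  set M := A.filter (fun i => e i = -1) with hM
  set JJ := Ja ∪ Jb with hJJ
  set Ba : Finset (ℕ × ℕ) := (Ja ×ˢ A).filter (fun p => p.1 < p.2 ∧ e p.2 ≠ e p.1 ∧ a p.2 ≠ e p.2)
    with hBa
  set Bb : Finset (ℕ × ℕ) := (A ×ˢ Jb).filter (fun p => p.1 < p.2 ∧ e p.1 ≠ e p.2 ∧ b p.1 ≠ e p.1)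
    with hBb
  set Pr' : Finset (ℕ × ℕ) := (P ×ˢ M) \ ((P \ JJ) ×ˢ (M \ JJ)) with hPr'
  have hPrC : (Pr'.card : ℤ) = (P.card : ℤ) * M.card
      - ((P.card : ℤ) - (P ∩ JJ).card) * ((M.card : ℤ) - (M ∩ JJ).card) := by
    have h1 : (P \ JJ) ×ˢ (M \ JJ) ⊆ P ×ˢ M := product_subset_product sdiff_subset sdiff_subset
    have h2 := card_sdiff_add_card_eq_card h1
    rw [card_product, card_product] at h2
    have h3 := card_sdiff_add_card_inter P JJ
    have h4 := card_sdiff_add_card_inter M JJ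
    have h5 : ((P \ JJ).card : ℤ) = P.card - (P ∩ JJ).card := by omega
    have h6 : ((M \ JJ).card : ℤ) = M.card - (M ∩ JJ).card := by omega
    have h7 : (Pr'.card : ℤ) + ((P \ JJ).card : ℤ) * ((M \ JJ).card : ℤ)
        = (P.card : ℤ) * M.card := by exact_mod_cast h2
    rw [h5, h6] at h7
    linarith
  have hcov : ∀ j ∈ A, ∀ i ∈ A, j < i → e j ≠ e i → (j ∈ JJ ∨ i ∈ JJ) →
      (j, i) ∈ Mismatch A a b e ∪ Ba ∪ Bb := by
    intro j hj i hi hlt hne hJ
    by_cases hbad : a i ≠ e i ∧ b j ≠ e j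
    · obtain ⟨hai, hbj⟩ := hbad
      have hiJa : i ∉ Ja := fun h => hai (hJa i h)
      have hjJb : j ∉ Jb := fun h => hbj (hJb j h)
      rcases hJ with h | h
      · rcases mem_union.1 h with h1 | h1
        · apply mem_union_left
          apply mem_union_right
          rw [hBa, mem_filter, mem_product]
          exact ⟨⟨h1, hi⟩, hlt, hne.symm, hai⟩
        · exact absurd h1 hjJb
      · rcases mem_union.1 h with h1 | h1
        · exact absurd h1 hiJa
        · apply mem_union_right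
          rw [hBb, mem_filter, mem_product]
          exact ⟨⟨hj, h1⟩, hlt, hne, hbj⟩
    · apply mem_union_left
      apply mem_union_left
      unfold Mismatch
      rw [mem_filter, mem_product]
      exact ⟨⟨hj, hi⟩, hlt, Or.inl ⟨hne, hbad⟩⟩
  have hmem : ∀ u v, (u, v) ∈ Pr' → u ∈ A ∧ e u = 1 ∧ v ∈ A ∧ e v = -1 ∧ (u ∈ JJ ∨ v ∈ JJ) := by
    intro u v huv
    rw [hPr', mem_sdiff, mem_product, mem_product, mem_sdiff, mem_sdiff, hP, hM, mem_filter,
      mem_filter] at huv
    obtain ⟨⟨⟨hu, heu⟩, ⟨hv, hev⟩⟩, hn⟩ := huv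
    refine ⟨hu, heu, hv, hev, ?_⟩
    by_contra hc
    rw [not_or] at hc
    exact hn ⟨⟨⟨hu, heu⟩, hc.1⟩, ⟨⟨hv, hev⟩, hc.2⟩⟩
  have hcover : Pr'.card ≤ (Mismatch A a b e ∪ Ba ∪ Bb).card := by
    apply card_le_card_of_injOn (fun p => (min p.1 p.2, max p.1 p.2))
    · intro x hx
      obtain ⟨u, v⟩ := x
      obtain ⟨hu, heu, hv, hev, hJ⟩ := hmem u v hx
      have hne : e u ≠ e v := by rw [heu, hev]; norm_num
      have huvne : u ≠ v := fun h => hne (by rw [h])
      rcases lt_or_gt_of_ne huvne with hlt | hlt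
      · have h1 : (min u v, max u v) = (u, v) := by
          rw [min_eq_left hlt.le, max_eq_right hlt.le]
        simp only [h1]
        exact hcov u hu v hv hlt hne hJ
      · have h1 : (min u v, max u v) = (v, u) := by
          rw [min_eq_right hlt.le, max_eq_left hlt.le]
        simp only [h1]
        exact hcov v hv u hu hlt hne.symm hJ.symm
    · intro x hx y hy hxy
      obtain ⟨u, v⟩ := x
      obtain ⟨u', v'⟩ := y
      obtain ⟨-, heu, -, hev, -⟩ := hmem u v hx
      obtain ⟨-, heu', -, hev', -⟩ := hmem u' v' hy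
      simp only [Prod.mk.injEq] at hxy ⊢
      obtain ⟨h1, h2⟩ := hxy
      have h3 : (u = u' ∧ v = v') ∨ (u = v' ∧ v = u') := by omega
      rcases h3 with h | h
      · exact h
      · exfalso
        rw [h.1, hev'] at heu
        norm_num at heu
  have h1 := card_union_le (Mismatch A a b e ∪ Ba) Bb
  have h2 := card_union_le (Mismatch A a b e) Ba
  have h3 : Pr'.card ≤ (Mismatch A a b e).card + Ba.card + Bb.card := by omega
  have h4 : (Pr'.card : ℤ) ≤ (Mismatch A a b e).card + Ba.card + Bb.card := by exact_mod_cast h3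
  rw [← hPrC]
  exact h4

lemma card_PM (A : Finset ℕ) (e : ℕ → ℤ) (he : ∀ i ∈ A, e i = 1 ∨ e i = -1) :
    ((A.filter (fun i => e i = 1)).card : ℤ) + (A.filter (fun i => e i = -1)).card = A.card := by
  have h1 := card_filter_add_card_filter_not (s := A) (fun i => e i = 1)
  have h2 : A.filter (fun i => ¬ e i = 1) = A.filter (fun i => e i = -1) := by
    apply filter_congr
    intro i hi
    rcases he i hi with h3 | h3
    · simp [h3]
    · simp [h3]
  rw [h2] at h1
  exact_mod_cast h1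

lemma rank_le (A Ja Jb : Finset ℕ) (a e : ℕ → ℤ) (hJa : ∀ i ∈ Ja, i ∈ A ∧ a i = e i) (s : ℤ) :
    ((Ja.filter (fun i => a i = s)).card : ℤ) ≤ ((A.filter (fun i => e i = s)) ∩ (Ja ∪ Jb)).card
    ∧ ((Ja.filter (fun i => a i = s)).card : ℤ) ≤ ((A.filter (fun i => e i = s)) ∩ (Jb ∪ Ja)).card := by
  have h : (Ja.filter (fun i => a i = s)).card ≤ ((A.filter (fun i => e i = s)) ∩ (Ja ∪ Jb)).card := by
    apply card_le_card
    intro i hi
    obtain ⟨h1, h2⟩ := mem_filter.1 hi
    obtain ⟨h3, h4⟩ := hJa i h1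
    rw [mem_inter, mem_filter]
    exact ⟨⟨h3, by rw [← h4, h2]⟩, mem_union_left _ h1⟩
  rw [union_comm Jb Ja]
  exact ⟨by exact_mod_cast h, by exact_mod_cast h⟩

/-- The zone inequality. -/
theorem cl (g h k G H t z Q w : ℕ) (a b e : ℕ → ℤ)
    (hh : h = g + G + H + 1) (ht : t + z + H = k) (hQ : Q + w + G = k)
    (ha : ∀ i ∈ Ico g h, a i = 1 ∨ a i = -1) (hb : ∀ i ∈ Ico g h, b i = 1 ∨ b i = -1)
    (he : ∀ i ∈ Ico g h, e i = 1 ∨ e i = -1)
    (hendA : ∀ i ∈ Ico g h, h ≤ i + (G + H - k) → a i = e i)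
    (hendB : ∀ i ∈ Ico g h, i < g + (G + H - k) → b i = e i) :
    2 * (∑ i ∈ (Ico g h).filter (fun i => a i = e i), dA (Ico g h) a t z G i
        + ∑ i ∈ (Ico g h).filter (fun i => b i = e i), dB (Ico g h) b Q w H i)
      ≤ ((t : ℤ) + Q + ((Ico g h).filter (fun i => e i = -1)).card - k)
          * ((t : ℤ) + Q + ((Ico g h).filter (fun i => e i = -1)).card - k - 1)
        + 2 * ((Mismatch (Ico g h) a b e).card : ℤ) := by
  have hAlt : ∀ i ∈ Ico g h, i < h := fun i hi => (mem_Ico.1 hi).2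
  have hCa : ((G + H - k : ℕ) : ℤ) = max 0 ((G : ℤ) - t - z) := by
    rcases le_total ((G : ℤ) - t - z) 0 with h0 | h0
    · rw [max_eq_left h0]; omega
    · rw [max_eq_right h0]; omega
  have hCb : ((G + H - k : ℕ) : ℤ) = max 0 ((H : ℤ) - Q - w) := by
    rcases le_total ((H : ℤ) - Q - w) 0 with h0 | h0
    · rw [max_eq_left h0]; omega
    · rw [max_eq_right h0]; omega
  obtain ⟨hsa1, hma1, hma2⟩ := side (A := Ico g h) (π := fun i => i) (a := a) (e := e) (T1 := t)
    (T2 := z) (G := (G : ℤ))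
    (fun _ _ _ _ h => h) ha he _ rfl (G + H - k) hCa (Ico (h - (G + H - k)) h)
    (by
      intro i hi
      rw [mem_Ico] at hi ⊢
      omega)
    (by
      intro i hi i' hi' hlt
      rw [mem_Ico] at hi hi' ⊢
      omega)
    (by
      rw [Nat.card_Ico]
      omega)
    (by
      intro i hi
      rw [mem_Ico] at hi
      refine hendA i ?_ ?_
      · rw [mem_Ico]; omega
      · omega)
  have hpi : Set.InjOn (fun i => h - i) ((Ico g h : Finset ℕ) : Set ℕ) := by
    intro i hi j hj hij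
    have h1 := hAlt i hi
    have h2 := hAlt j hj
    simp only at hij
    omega
  obtain ⟨hsb1, hmb1, hmb2⟩ := side (A := Ico g h) (π := fun i => h - i) (a := b) (e := e) (T1 := Q)
    (T2 := w) (G := (H : ℤ))
    hpi hb he _ rfl (G + H - k) hCb (Ico g (g + (G + H - k)))
    (by
      intro i hi
      rw [mem_Ico] at hi ⊢
      omega)
    (by
      intro i hi i' hi' hlt
      have h1 := hAlt i (by rw [mem_Ico]; rw [mem_Ico] at hi; omega)
      have h2 := hAlt i' hi'
      rw [mem_Ico] at hi hi' ⊢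
      omega)
    (by
      rw [Nat.card_Ico]
      omega)
    (by
      intro i hi
      rw [mem_Ico] at hi
      refine hendB i ?_ ?_
      · rw [mem_Ico]; omega
      · omega)
  have hSa : ∑ i ∈ (Ico g h).filter (fun i => a i = e i), dA (Ico g h) a t z G i
      = ∑ i ∈ (Ico g h).filter (fun i => a i = e i), dS (Ico g h) (fun i => i) a t z (G : ℤ) i :=
    sum_congr rfl fun i _ => dA_eq (Ico g h) a t z G i
  have hSb : ∑ i ∈ (Ico g h).filter (fun i => b i = e i), dB (Ico g h) b Q w H i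
      = ∑ i ∈ (Ico g h).filter (fun i => b i = e i), dS (Ico g h) (fun i => h - i) b Q w (H : ℤ) i :=
    sum_congr rfl fun i hi => dB_eq (Ico g h) h hAlt b Q w H i (mem_filter.1 hi).1
  rw [hSa, hSb]
  have hBaC : (((JS (Ico g h) (fun i => i) a e t z (G : ℤ) ×ˢ Ico g h).filter
        (fun p => p.1 < p.2 ∧ e p.2 ≠ e p.1 ∧ a p.2 ≠ e p.2)).card : ℤ)
      = ∑ i ∈ JS (Ico g h) (fun i => i) a e t z (G : ℤ), (Bet (Ico g h) (fun i => i) a e i : ℤ) :=
    card_pairs _ (Ico g h) (fun j i => j < i ∧ e i ≠ e j ∧ a i ≠ e i)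
  have hBbC : (((Ico g h ×ˢ JS (Ico g h) (fun i => h - i) b e Q w (H : ℤ)).filter
        (fun p => p.1 < p.2 ∧ e p.1 ≠ e p.2 ∧ b p.1 ≠ e p.1)).card : ℤ)
      = ∑ i ∈ JS (Ico g h) (fun i => h - i) b e Q w (H : ℤ),
          (Bet (Ico g h) (fun i => h - i) b e i : ℤ) := by
    rw [card_pairs' (Ico g h) _ (fun j i => j < i ∧ e j ≠ e i ∧ b j ≠ e j)]
    refine sum_congr rfl fun i hi => ?_
    have hiA : i ∈ Ico g h := (mem_JS.1 hi).1
    unfold Bet
    congr 2
    apply filter_congr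
    intro j hj
    simp only
    rw [pi_lt (hAlt i hiA) (hAlt j hj)]
  have hcount := pairs_count (Ico g h) (JS (Ico g h) (fun i => i) a e t z (G : ℤ))
    (JS (Ico g h) (fun i => h - i) b e Q w (H : ℤ)) a b e
    (fun i hi => (mem_JS.1 hi).2.1) (fun i hi => (mem_JS.1 hi).2.1)
  have hPM := card_PM (Ico g h) e he
  have hcA : ((Ico g h).card : ℤ) = (G : ℤ) + H + 1 := by
    rw [Nat.card_Ico]; omega
  rw [hcA] at hPM
  have hr1 := rank_le (Ico g h) (JS (Ico g h) (fun i => i) a e t z (G : ℤ))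
    (JS (Ico g h) (fun i => h - i) b e Q w (H : ℤ)) a e
    (fun i hi => ⟨(mem_JS.1 hi).1, (mem_JS.1 hi).2.1⟩)
  have hr2 := rank_le (Ico g h) (JS (Ico g h) (fun i => h - i) b e Q w (H : ℤ))
    (JS (Ico g h) (fun i => i) a e t z (G : ℤ)) b e
    (fun i hi => ⟨(mem_JS.1 hi).1, (mem_JS.1 hi).2.1⟩)
  rw [← hBaC] at hsa1
  rw [← hBbC] at hsb1
  have hma1' := hma1
  have hma2' := hma2
  have hmb1' := hmb1
  have hmb2' := hmb2
  refine arith_close (t : ℤ) z Q w G H k _ _
    (((JS (Ico g h) (fun i => i) a e t z (G : ℤ)).filter (fun i => a i = 1)).card : ℤ)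
    (((JS (Ico g h) (fun i => h - i) b e Q w (H : ℤ)).filter (fun i => b i = 1)).card : ℤ)
    (((JS (Ico g h) (fun i => i) a e t z (G : ℤ)).filter (fun i => a i = -1)).card : ℤ)
    (((JS (Ico g h) (fun i => h - i) b e Q w (H : ℤ)).filter (fun i => b i = -1)).card : ℤ)
    _ _ ((G + H - k : ℕ) : ℤ) _ _ _ _ _
    (Int.natCast_nonneg _) (Int.natCast_nonneg _) (Int.natCast_nonneg _) (Int.natCast_nonneg _)
    (by exact_mod_cast ht) (by exact_mod_cast hQ)
    hPM hCa (Int.natCast_nonneg _) (Int.natCast_nonneg _) (Int.natCast_nonneg _)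
    (Int.natCast_nonneg _)
    (hr1 1).1 (hr2 1).2 (hr1 (-1)).1 (hr2 (-1)).2
    (by exact_mod_cast card_le_card inter_subset_left)
    (by exact_mod_cast card_le_card inter_subset_left)
    (by rcases hma1' with h0 | h0
        · left; rw [h0]; rfl
        · right; exact h0)
    (by rcases hma2' with h0 | h0
        · left; rw [h0]; rfl
        · right; exact h0)
    (by rcases hmb1' with h0 | h0
        · left; rw [h0]; rfl
        · right; exact h0)
    (by rcases hmb2' with h0 | h0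
        · left; rw [h0]; rfl
        · right; exact h0)
    hsa1 hsb1 hcount

end Vale.Agent.Lib.P040.CL
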