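import Vale.Agent.Lib.P040.TwoPageGen

/-!
Potential lemma for the two-page certificate (helper51): for a star at gap `g ≤ k` and any word `a`,
`∑_{l ∈ [g, 2k]} |certC k g a l - sumR k a l| = (k-g)(k-g+1)`, plus the value of the bad sum
`∑ (a_l X_l - w_l)⁺`. Everything goes through the function `gq n = n⁺ (n⁺ - 1)`.
-/

namespace Vale.Agent.Lib.P040.Gen.Delta

open Finset Vale.Agent.Lib.P040.Gen

/-- `n⁺ (n⁺ - 1)`: twice the binomial coefficient `C(n⁺, 2)`. -/
def gq (n : ℤ) : ℤ := max n 0 * (max n 0 - 1)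

theorem gq_succ (n : ℤ) : gq (n + 1) = gq n + 2 * max n 0 := by
  unfold gq
  rcases le_or_gt 0 n with h | h
  · rw [max_eq_left h, max_eq_left (by omega : (0 : ℤ) ≤ n + 1)]; ring
  · rw [max_eq_right (by omega : n + 1 ≤ 0), max_eq_right (by omega : n ≤ 0)]; ring

theorem gq_of_nonpos {n : ℤ} (h : n ≤ 0) : gq n = 0 := by
  unfold gq; rw [max_eq_right h]; ring

theorem gq_of_nonneg {n : ℤ} (h : 0 ≤ n) : gq n = n * (n - 1) := by
  unfold gq; rw [max_eq_left h]

theorem gq_mono {n m : ℤ} (h : n ≤ m) : gq n ≤ gq m := by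
  unfold gq
  have h1 : max n 0 ≤ max m 0 := max_le_max h le_rfl
  have h2 : 0 ≤ max n 0 := le_max_right _ _
  have h3 : 0 ≤ max m 0 := le_max_right _ _
  generalize max n 0 = x at *
  generalize max m 0 = y at *
  rcases eq_or_lt_of_le h1 with e | e
  · rw [e]
  · nlinarith

theorem gq_split (n : ℤ) : n * (n - 1) = gq n + gq (1 - n) := by
  rcases le_or_gt 1 n with h | h
  · rw [gq_of_nonneg (by omega : (0 : ℤ) ≤ n), gq_of_nonpos (by omega : 1 - n ≤ 0)]; ring
  · rw [gq_of_nonpos (by omega : n ≤ 0), gq_of_nonneg (by omega : (0 : ℤ) ≤ 1 - n)]; ring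

/-- Twice the primitive of `|n|`. -/
def H2 (n : ℤ) : ℤ := gq n - gq (1 - n)

theorem H2_succ (n : ℤ) : H2 (n + 1) = H2 n + 2 * |n| := by
  unfold H2
  have h1 := gq_succ n
  have h2 := gq_succ (-n)
  have e1 : (1 - (n + 1) : ℤ) = -n := by ring
  have e2 : (-n + 1 : ℤ) = 1 - n := by ring
  rw [e1]
  rw [e2] at h2
  have h3 : |n| = max n 0 + max (-n) 0 := by
    rw [abs_eq_max_neg]; omega
  rw [h1, h2, h3]; ring

/-- Sum of signs from `l` to `2k`. -/
def Xp (k : ℕ) (a : ℕ → ℤ) (l : ℕ) : ℤ := ∑ i ∈ Ico l (2 * k + 1), a i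

theorem sumR_eq (k : ℕ) (a : ℕ → ℤ) (l : ℕ) : sumR k a l = Xp k a (l + 1) := by
  unfold sumR Xp
  congr 1
  ext i
  simp only [mem_Ioc, mem_Ico]
  omega

/-- Downward induction. -/
theorem down_ind {N : ℕ} {P : ℕ → Prop} (h0 : P N) (hs : ∀ l, l < N → P (l + 1) → P l) :
    ∀ l, l ≤ N → P l := by
  have key : ∀ n l, l + n = N → P l := by
    intro n
    induction n with
    | zero =>
      intro l hl
      have : l = N := by omega
      rw [this]; exact h0
    | succ n ih =>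
      intro l hl
      exact hs l (by omega) (ih (l + 1) (by omega))
  intro l hl
  exact key (N - l) l (by omega)

/-- The potential. -/
def Gpot (k g : ℕ) (t z : ℤ) : ℤ :=
  gq ((k : ℤ) - g + 1) - gq ((k : ℤ) - g + 1 - t) - gq ((k : ℤ) - g + 1 - z)
    + gq ((k : ℤ) - g + 1 - t - z) + gq (t - k) + gq (z - k)

theorem Gpot_t (k g : ℕ) (t z : ℤ) :
    Gpot k g (t + 1) z = Gpot k g t z + 2 * max ((k : ℤ) - g - t) 0
      - 2 * max ((k : ℤ) - g - t - z) 0 + 2 * max (t - k) 0 := by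
  unfold Gpot
  have h1 := gq_succ ((k : ℤ) - g - t)
  have h2 := gq_succ ((k : ℤ) - g - t - z)
  have h3 := gq_succ (t - k)
  rw [show ((k : ℤ) - g - t + 1) = (k : ℤ) - g + 1 - t by ring] at h1
  rw [show ((k : ℤ) - g - t - z + 1) = (k : ℤ) - g + 1 - t - z by ring] at h2
  rw [show (t - k + 1 : ℤ) = t + 1 - k by ring] at h3
  rw [show ((k : ℤ) - g + 1 - (t + 1)) = (k : ℤ) - g - t by ring, h3, h1, h2]
  ring

theorem Gpot_z (k g : ℕ) (t z : ℤ) :
    Gpot k g t (z + 1) = Gpot k g t z + 2 * max ((k : ℤ) - g - z) 0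
      - 2 * max ((k : ℤ) - g - t - z) 0 + 2 * max (z - k) 0 := by
  unfold Gpot
  have h1 := gq_succ ((k : ℤ) - g - z)
  have h2 := gq_succ ((k : ℤ) - g - t - z)
  have h3 := gq_succ (z - k)
  rw [show ((k : ℤ) - g - z + 1) = (k : ℤ) - g + 1 - z by ring] at h1
  rw [show ((k : ℤ) - g - t - z + 1) = (k : ℤ) - g + 1 - t - z by ring] at h2
  rw [show (z - k + 1 : ℤ) = z + 1 - k by ring] at h3
  rw [show ((k : ℤ) - g + 1 - (z + 1)) = (k : ℤ) - g - z by ring,
    show ((k : ℤ) - g + 1 - t - (z + 1)) = (k : ℤ) - g - t - z by ring, h3, h1, h2]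
  ring

/-- The one-step computation: `|Δ_l|` and the bad part in terms of the counts `s` (same as `a_l`) and `o` (opposite). -/
theorem local_same (K G L s o X : ℤ) (hG : 0 ≤ G) (hGL : G ≤ L) (hGK : G ≤ K)
    (hs : 0 ≤ s) (ho : 0 ≤ o) (hso : s + o + L = 2 * K) (hX : X = s - o) :
    |max (clampZ (min L (2 * K - L)) X) (clampZ (min L (2 * K - L)) (L - 2 * G)) - X|
        = 2 * max (K - G - s) 0 - 2 * max (K - G - s - o) 0 + 2 * max (s - K) 0
      ∧ max (X - min L (2 * K - L)) 0 = 2 * max (s - K) 0 := by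
  subst hX
  unfold clampZ
  simp only [abs_eq_max_neg]
  constructor <;> omega

theorem local_opp (K G L s o X : ℤ) (hG : 0 ≤ G) (hGL : G ≤ L) (hGK : G ≤ K)
    (hs : 0 ≤ s) (ho : 0 ≤ o) (hso : s + o + L = 2 * K) (hX : X = o - s) :
    |-max (-clampZ (min L (2 * K - L)) X) (clampZ (min L (2 * K - L)) (L - 2 * G)) - X|
        = 2 * max (K - G - s) 0 - 2 * max (K - G - s - o) 0 + 2 * max (s - K) 0
      ∧ max (-X - min L (2 * K - L)) 0 = 2 * max (s - K) 0 := by
  subst hX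
  unfold clampZ
  simp only [abs_eq_max_neg]
  constructor <;> omega

/-- The bad amount at `l`. -/
def bad (k : ℕ) (a : ℕ → ℤ) (l : ℕ) : ℤ := max (a l * sumR k a l - wd k l) 0

/-- Path induction: the state at `l` is the pair of counts `(t, z)`. -/
theorem delta_path (k g : ℕ) (hg : g ≤ k) (a : ℕ → ℤ) (ha : ∀ i, a i = 1 ∨ a i = -1) :
    ∀ l, l ≤ 2 * k + 1 → g ≤ l → ∃ t z : ℤ, 0 ≤ t ∧ 0 ≤ z ∧ t + z = 2 * (k : ℤ) + 1 - l ∧
      Xp k a l = t - z ∧
      ∑ i ∈ Ico l (2 * k + 1), |certC k g a i - sumR k a i| = Gpot k g t z ∧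
      ∑ i ∈ Ico l (2 * k + 1), bad k a i = gq (t - k) + gq (z - k) := by
  refine down_ind (N := 2 * k + 1) ?_ ?_
  · intro _
    refine ⟨0, 0, le_rfl, le_rfl, by push_cast; ring, by simp [Xp], ?_, ?_⟩
    · simp only [Ico_self, sum_empty]
      unfold Gpot
      have hk : gq (0 - (k : ℤ)) = 0 := gq_of_nonpos (by omega)
      simp only [sub_zero, hk]
      ring
    · simp only [Ico_self, sum_empty]
      have hk : gq (0 - (k : ℤ)) = 0 := gq_of_nonpos (by omega)
      simp only [hk]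
      ring
  · intro l hl ih hgl
    obtain ⟨t, z, ht, hz, htz, hX, hD, hB⟩ := ih (by omega)
    have hX0 : sumR k a l = t - z := by rw [sumR_eq, hX]
    have hsum1 : ∀ f : ℕ → ℤ, ∑ i ∈ Ico l (2 * k + 1), f i
        = f l + ∑ i ∈ Ico (l + 1) (2 * k + 1), f i := fun f =>
      Finset.sum_eq_sum_Ico_succ_bot hl f
    have hC : certC k g a l = a l * max (a l * clampZ (wd k l) (sumR k a l))
        (clampZ (wd k l) ((l : ℤ) - 2 * g)) := by
      unfold certC; rw [if_pos hgl]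
    have hbad : bad k a l = max (a l * sumR k a l - wd k l) 0 := rfl
    have hGK : (g : ℤ) ≤ k := by exact_mod_cast hg
    have hGL : (g : ℤ) ≤ l := by exact_mod_cast hgl
    have hG : (0 : ℤ) ≤ g := by positivity
    have hlz : (l : ℤ) + 1 ≤ 2 * k + 1 := by exact_mod_cast hl
    rcases ha l with hal | hal
    · -- one at `l`
      obtain ⟨h1, h2⟩ := local_same k g l t z (t - z) hG hGL hGK ht hz (by push_cast at htz; linarith) rfl
      refine ⟨t + 1, z, by omega, hz, by push_cast at htz ⊢; linarith, ?_, ?_, ?_⟩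
      · unfold Xp at hX ⊢
        rw [hsum1, hX, hal]; ring
      · rw [hsum1, hD, Gpot_t, hC, hX0, hal]
        simp only [one_mul]
        unfold wd
        rw [h1]; ring
      · rw [hsum1, hB, hbad, hX0, hal]
        simp only [one_mul]
        unfold wd
        rw [h2, show (t + 1 - (k : ℤ)) = (t - k) + 1 by ring, gq_succ]; ring
    · -- zero at `l`
      obtain ⟨h1, h2⟩ := local_opp k g l z t (t - z) hG hGL hGK hz ht (by push_cast at htz; linarith) rfl
      refine ⟨t, z + 1, ht, by omega, by push_cast at htz ⊢; linarith, ?_, ?_, ?_⟩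
      · unfold Xp at hX ⊢
        rw [hsum1, hX, hal]; ring
      · rw [hsum1, hD, Gpot_z, hC, hX0, hal]
        simp only [neg_mul, one_mul]
        unfold wd
        rw [h1]; ring
      · rw [hsum1, hB, hbad, hX0, hal]
        simp only [neg_mul, one_mul]
        unfold wd
        rw [h2, show (z + 1 - (k : ℤ)) = (z - k) + 1 by ring, gq_succ]; ring

/-- **Lemma 1.** The total correction of a star at gap `g ≤ k` does not depend on the word. -/
theorem sum_delta (k g : ℕ) (hg : g ≤ k) (a : ℕ → ℤ) (ha : ∀ i, a i = 1 ∨ a i = -1) :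
    ∑ i ∈ Ico g (2 * k + 1), |certC k g a i - sumR k a i| = ((k : ℤ) - g) * ((k : ℤ) - g + 1) := by
  obtain ⟨t, z, ht, hz, htz, -, hD, -⟩ := delta_path k g hg a ha g (by omega) le_rfl
  rw [hD]
  unfold Gpot
  have e1 : ((k : ℤ) - g + 1 - t) = z - k := by linarith
  have e2 : ((k : ℤ) - g + 1 - z) = t - k := by linarith
  have e3 : gq ((k : ℤ) - g + 1 - t - z) = 0 := gq_of_nonpos (by
    have : (0 : ℤ) ≤ k := by positivity
    linarith)
  have e4 : gq ((k : ℤ) - g + 1) = ((k : ℤ) - g + 1) * ((k : ℤ) - g) := by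
    rw [gq_of_nonneg (by have : (g : ℤ) ≤ k := by exact_mod_cast hg
                         linarith)]
    ring
  rw [e3, e1, e2, e4]
  ring

/-- The bad sum from `l`, with the counts from `l`. -/
theorem sum_bad (k g : ℕ) (hg : g ≤ k) (a : ℕ → ℤ) (ha : ∀ i, a i = 1 ∨ a i = -1) (l : ℕ)
    (hl : l ≤ 2 * k + 1) (hgl : g ≤ l) : ∃ t z : ℤ, 0 ≤ t ∧ 0 ≤ z ∧ t + z = 2 * (k : ℤ) + 1 - l ∧
      Xp k a l = t - z ∧ ∑ i ∈ Ico l (2 * k + 1), bad k a i = gq (t - k) + gq (z - k) := by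
  obtain ⟨t, z, ht, hz, htz, hX, -, hB⟩ := delta_path k g hg a ha l hl hgl
  exact ⟨t, z, ht, hz, htz, hX, hB⟩

end Vale.Agent.Lib.P040.Gen.Delta
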