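import Vale.Agent.Lib.P040.TwoPageGen

/-!
The reflection `i ↦ 2k - i` of the points: it maps the star pair `(g, a), (h, b)` to the star pair
`(2k+1-h, b ∘ rev), (2k+1-g, a ∘ rev)`, and preserves the certificate values, the agreement of each
group and the crossings.  So `KeyIneq` only has to be proved for one of each mirror pair of gap pairs.
-/

namespace Vale.Agent.Lib.P040.Gen

open Finset

theorem wd_rev (k l : ℕ) (hl : l ≤ 2 * k) : wd k (2 * k - l) = wd k l := by
  unfold wd
  have h : ((2 * k - l : ℕ) : ℤ) = 2 * (k : ℤ) - l := by omega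
  rw [h]
  omega

theorem sumR_rev (k : ℕ) (a : ℕ → ℤ) (l : ℕ) (hl : l ≤ 2 * k) :
    sumR k (fun i => a (2 * k - i)) (2 * k - l) = sumL a l := by
  unfold sumR sumL
  refine Finset.sum_bij (fun i _ => 2 * k - i) ?_ ?_ ?_ ?_
  · intro i hi
    simp only [mem_Ioc, mem_range] at hi ⊢
    omega
  · intro i hi j hj hij
    simp only [mem_Ioc] at hi hj
    omega
  · intro j hj
    simp only [mem_range] at hj
    refine ⟨2 * k - j, ?_, ?_⟩
    · simp only [mem_Ioc]
      omega
    · omega
  · intro i _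
    rfl

theorem sumL_rev (k : ℕ) (a : ℕ → ℤ) (l : ℕ) (hl : l ≤ 2 * k) :
    sumL (fun i => a (2 * k - i)) (2 * k - l) = sumR k a l := by
  unfold sumR sumL
  refine Finset.sum_bij (fun i _ => 2 * k - i) ?_ ?_ ?_ ?_
  · intro i hi
    simp only [mem_Ioc, mem_range] at hi ⊢
    omega
  · intro i hi j hj hij
    simp only [mem_range] at hi hj
    omega
  · intro j hj
    simp only [mem_Ioc] at hj
    refine ⟨2 * k - j, ?_, ?_⟩
    · simp only [mem_range]
      omega
    · omega
  · intro i _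
    rfl

/-- The certificate is preserved by the reflection. -/
theorem certC_rev (k g : ℕ) (a : ℕ → ℤ) (l : ℕ) (hl : l ≤ 2 * k) (hg : g ≤ 2 * k + 1) :
    certC k (2 * k + 1 - g) (fun i => a (2 * k - i)) (2 * k - l) = certC k g a l := by
  have hw := wd_rev k l hl
  have hR := sumR_rev k a l hl
  have hL := sumL_rev k a l hl
  have hl2 : 2 * k - (2 * k - l) = l := by omega
  unfold certC
  simp only [hl2, hw, hR, hL]
  by_cases h : l < g
  · have h1 : 2 * k + 1 - g ≤ 2 * k - l := by omega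
    have h2 : ¬ g ≤ l := by omega
    rw [if_pos h1, if_neg h2]
    have h3 : ((2 * k - l : ℕ) : ℤ) - 2 * ((2 * k + 1 - g : ℕ) : ℤ)
        = 2 * (g : ℤ) - 2 - 2 * k - l := by omega
    rw [h3]
  · have h1 : ¬ 2 * k + 1 - g ≤ 2 * k - l := by omega
    have h2 : g ≤ l := by omega
    rw [if_neg h1, if_pos h2]
    have h3 : 2 * ((2 * k + 1 - g : ℕ) : ℤ) - 2 - 2 * k - ((2 * k - l : ℕ) : ℤ)
        = (l : ℤ) - 2 * g := by omega
    rw [h3]

/-- Each group keeps its agreement under the reflection. -/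
theorem grpAgree_rev (k g h : ℕ) (a b : ℕ → ℤ) (l : ℕ) (hl : l ≤ 2 * k) (hg : g ≤ 2 * k + 1)
    (hh : h ≤ 2 * k + 1) :
    grpAgree k (2 * k + 1 - h) (2 * k + 1 - g) (fun i => b (2 * k - i)) (fun i => a (2 * k - i))
      (2 * k - l) = grpAgree k g h a b l := by
  unfold grpAgree
  rw [certC_rev k h b l hl hh, certC_rev k g a l hl hg, wd_rev k l hl]
  have hc : ((2 * k + 1 - h ≤ 2 * k - l ∧ 2 * k + 1 - g ≤ 2 * k - l) ∨
      (2 * k - l < 2 * k + 1 - h ∧ 2 * k - l < 2 * k + 1 - g)) ↔
      ((g ≤ l ∧ h ≤ l) ∨ (l < g ∧ l < h)) := by omega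
  by_cases hs : (g ≤ l ∧ h ≤ l) ∨ (l < g ∧ l < h)
  · rw [if_pos (hc.2 hs), if_pos hs, abs_sub_comm]
  · rw [if_neg (fun h' => hs (hc.1 h')), if_neg hs, add_comm]

/-- The sum of the agreements over the groups is preserved. -/
theorem sum_grpAgree_rev (k g h : ℕ) (a b : ℕ → ℤ) (hg : g ≤ 2 * k + 1) (hh : h ≤ 2 * k + 1) :
    ∑ l ∈ Icc 1 (2 * k - 1),
        grpAgree k (2 * k + 1 - h) (2 * k + 1 - g) (fun i => b (2 * k - i))
          (fun i => a (2 * k - i)) l =
      ∑ l ∈ Icc 1 (2 * k - 1), grpAgree k g h a b l := by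
  refine Finset.sum_bij (fun l _ => 2 * k - l) ?_ ?_ ?_ ?_
  · intro l hl
    simp only [mem_Icc] at hl ⊢
    omega
  · intro i hi j hj hij
    simp only [mem_Icc] at hi hj
    omega
  · intro j hj
    simp only [mem_Icc] at hj
    refine ⟨2 * k - j, ?_, ?_⟩
    · simp only [mem_Icc]
      omega
    · omega
  · intro l hl
    simp only [mem_Icc] at hl
    have := grpAgree_rev k g h a b (2 * k - l) (by omega) hg hh
    have h2 : 2 * k - (2 * k - l) = l := by omega
    rw [h2] at this
    exact this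

theorem Rel_rev (k g h i j : ℕ) (hi : i ≤ 2 * k) (hj : j ≤ 2 * k) (hg : g ≤ 2 * k + 1)
    (hh : h ≤ 2 * k + 1) :
    Rel (2 * k + 1 - h) (2 * k + 1 - g) (2 * k - j) (2 * k - i) ↔ Rel g h i j := by
  unfold Rel
  omega

/-- The crossings are preserved. -/
theorem cr2_rev (k g h : ℕ) (a b : ℕ → ℤ) (hg : g ≤ 2 * k + 1) (hh : h ≤ 2 * k + 1) :
    cr2 k (2 * k + 1 - h) (2 * k + 1 - g) (fun i => b (2 * k - i)) (fun i => a (2 * k - i)) =
      cr2 k g h a b := by
  unfold cr2
  rw [Finset.sum_comm]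
  refine Finset.sum_bij (fun j _ => 2 * k - j) ?_ ?_ ?_ ?_
  · intro j hj
    simp only [mem_range] at hj ⊢
    omega
  · intro i hi j hj hij
    simp only [mem_range] at hi hj
    omega
  · intro j hj
    simp only [mem_range] at hj
    refine ⟨2 * k - j, ?_, ?_⟩
    · simp only [mem_range]
      omega
    · omega
  · intro j hj
    simp only [mem_range] at hj
    refine Finset.sum_bij (fun i _ => 2 * k - i) ?_ ?_ ?_ ?_
    · intro i hi
      simp only [mem_range] at hi ⊢
      omega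
    · intro i hi i' hi' hii
      simp only [mem_range] at hi hi'
      omega
    · intro i hi
      simp only [mem_range] at hi
      refine ⟨2 * k - i, ?_, ?_⟩
      · simp only [mem_range]
        omega
      · omega
    · intro i hi
      simp only [mem_range] at hi
      have hR := Rel_rev k g h (2 * k - j) (2 * k - i) (by omega) (by omega) hg hh
      have h1 : 2 * k - (2 * k - i) = i := by omega
      have h2 : 2 * k - (2 * k - j) = j := by omega
      rw [h1, h2] at hR
      by_cases hrel : Rel g h (2 * k - j) (2 * k - i)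
      · rw [if_pos (hR.2 hrel), if_pos hrel]
        ring
      · rw [if_neg (fun h' => hrel (hR.1 h')), if_neg hrel]

/-- The key inequality of a gap pair follows from that of its mirror pair. -/
theorem key_of_mirror (k g h : ℕ) (a b : ℕ → ℤ) (hg : g ≤ 2 * k + 1) (hh : h ≤ 2 * k + 1)
    (H : ∑ l ∈ Icc 1 (2 * k - 1),
        grpAgree k (2 * k + 1 - h) (2 * k + 1 - g) (fun i => b (2 * k - i))
          (fun i => a (2 * k - i)) l ≤
      cr2 k (2 * k + 1 - h) (2 * k + 1 - g) (fun i => b (2 * k - i)) (fun i => a (2 * k - i))) :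
    ∑ l ∈ Icc 1 (2 * k - 1), grpAgree k g h a b l ≤ cr2 k g h a b := by
  rw [sum_grpAgree_rev k g h a b hg hh, cr2_rev k g h a b hg hh] at H
  exact H

/-- Reduction of `KeyIneq` to pairs of gaps with `g + h ≤ 2k + 1`: every other pair is the mirror
of one of them. -/
theorem keyIneq_of_half (k : ℕ)
    (H : ∀ (g h : ℕ) (a b : ℕ → ℤ), g ≤ h → h ≤ 2 * k + 1 → g + h ≤ 2 * k + 1 →
      (∀ i, a i = 1 ∨ a i = -1) → (∀ i, b i = 1 ∨ b i = -1) →
      ∑ l ∈ Icc 1 (2 * k - 1), grpAgree k g h a b l ≤ cr2 k g h a b) :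
    KeyIneq k := by
  intro g h a b hgh hh ha hb
  by_cases hs : g + h ≤ 2 * k + 1
  · exact H g h a b hgh hh hs ha hb
  · refine key_of_mirror k g h a b (by omega) hh ?_
    exact H (2 * k + 1 - h) (2 * k + 1 - g) _ _ (by omega) (by omega) (by omega)
      (fun i => hb _) (fun i => ha _)

end Vale.Agent.Lib.P040.Gen
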