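import Vale.Agent.Lib.P040.Delta

/-!
`KeyIneq` for two gaps on the same side: `g ≤ h ≤ k` (helper51, notes/P040_h51_sameside.md).
-/

namespace Vale.Agent.Lib.P040.Gen.SameSide

open Finset Vale.Agent.Lib.P040.Gen Vale.Agent.Lib.P040.Gen.Delta

theorem abs_sum_sign (s : Finset ℕ) (a : ℕ → ℤ) (ha : ∀ i, a i = 1 ∨ a i = -1) :
    |∑ i ∈ s, a i| ≤ s.card := by
  calc |∑ i ∈ s, a i| ≤ ∑ i ∈ s, |a i| := Finset.abs_sum_le_sum_abs _ _
    _ = ∑ _i ∈ s, (1 : ℤ) := by
        refine Finset.sum_congr rfl fun i _ => ?_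
        rcases ha i with h | h <;> simp [h]
    _ = s.card := by simp

theorem wd_left {k l : ℕ} (h : l ≤ k) : wd k l = l := by
  unfold wd
  omega

theorem wd_eq_zero {k l : ℕ} (h : l = 0 ∨ l = 2 * k) : wd k l = 0 := by
  unfold wd
  omega

theorem certC_left {k g l : ℕ} (hgk : g ≤ k) (hlg : l < g) (a : ℕ → ℤ)
    (ha : ∀ i, a i = 1 ∨ a i = -1) : certC k g a l = sumL a l := by
  unfold certC
  rw [if_neg (by omega), wd_left (by omega)]
  have hb := abs_sum_sign (range l) a ha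
  rw [card_range] at hb
  have hb' := abs_le.mp hb
  have hY : sumL a l = ∑ i ∈ range l, a i := rfl
  rw [← hY] at hb'
  have hgk' : (g : ℤ) ≤ k := by exact_mod_cast hgk
  have hlg' : (l : ℤ) < g := by exact_mod_cast hlg
  have hl0 : (0 : ℤ) ≤ l := by positivity
  generalize sumL a l = Y at *
  unfold clampZ
  rcases ha l with h | h <;> rw [h] <;> omega

theorem grp_zero {k g h l : ℕ} (a b : ℕ → ℤ) (hl : l = 0 ∨ l = 2 * k) : grpAgree k g h a b l = 0 := by
  have hw := wd_eq_zero hl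
  have hc : ∀ (f : ℕ) (c : ℕ → ℤ), certC k f c l = 0 := by
    intro f c
    unfold certC clampZ
    rw [hw]
    split_ifs <;> simp
  unfold grpAgree
  rw [hc, hc, hw]
  split_ifs <;> simp

/-- Termwise inequality for `l < g`. -/
theorem loc_I (L Ya Yb B : ℤ) (hB : B = 1 ∨ B = -1) :
    B * Yb - L ≤ L + B * Ya - (2 * L - |Ya - Yb|) := by
  simp only [abs_eq_max_neg]
  rcases hB with rfl | rfl <;> omega

/-- Termwise inequality for `g ≤ l < h`. -/
theorem loc_II (L G A X Z Q : ℤ) (hA : A = 1 ∨ A = -1) (hG : 0 ≤ G) (hGL : G ≤ L)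
    (hQ1 : -(L - G) ≤ Q) (hQ2 : Q ≤ L - G) (hZ1 : -G ≤ Z) (hZ2 : Z ≤ G) :
    |A * max (A * clampZ L X) (clampZ L (L - 2 * G)) - X| - |X + Z - A * (L - G)|
      ≤ (L - G) + A * Q - |A * max (A * clampZ L X) (clampZ L (L - 2 * G)) + (Z + Q)| := by
  unfold clampZ
  simp only [abs_eq_max_neg]
  rcases hA with rfl | rfl <;> omega

/-- Termwise inequality for `h ≤ l`. -/
theorem loc_III (W Y A Xa Xb C' : ℤ) (hA : A = 1 ∨ A = -1) (hW : 0 ≤ W) :
    A * Xa + |A * max (A * clampZ W Xa) (clampZ W Y) - Xa| - 2 * max (A * Xa - W) 0 - |C' - Xb|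
      ≤ A * Xb + |A * max (A * clampZ W Xa) (clampZ W Y) - C'| := by
  unfold clampZ
  simp only [abs_eq_max_neg]
  rcases hA with rfl | rfl <;> omega


/-- Closing a double sum with a condition over one with explicit ranges. -/
theorem dbl (N : ℕ) (P : ℕ → ℕ → Prop) [∀ i j, Decidable (P i j)] (s : Finset ℕ) (t : ℕ → Finset ℕ)
    (f : ℕ → ℕ → ℤ) (hs : s ⊆ range N) (ht : ∀ i ∈ s, t i ⊆ range N)
    (H : ∀ i j, i < N → j < N → (P i j ↔ i ∈ s ∧ j ∈ t i)) :
    ∑ i ∈ range N, ∑ j ∈ range N, (if P i j then f i j else 0) = ∑ i ∈ s, ∑ j ∈ t i, f i j := by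
  have key : ∀ i ∈ range N, ∑ j ∈ range N, (if P i j then f i j else 0)
      = if i ∈ s then ∑ j ∈ t i, f i j else 0 := by
    intro i hi
    have hi' := mem_range.mp hi
    rw [← Finset.sum_filter]
    split_ifs with his
    · refine Finset.sum_congr ?_ (fun _ _ => rfl)
      ext j
      simp only [mem_filter, mem_range]
      constructor
      · rintro ⟨hj, hp⟩
        exact ((H i j hi' hj).mp hp).2
      · intro hj
        have hj' : j < N := mem_range.mp (ht i his hj)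
        exact ⟨hj', (H i j hi' hj').mpr ⟨his, hj⟩⟩
    · refine Finset.sum_eq_zero fun j hj => ?_
      simp only [mem_filter, mem_range] at hj
      exact absurd ((H i j hi' hj.1).mp hj.2).1 his
  rw [Finset.sum_congr rfl key, Finset.sum_ite_mem, inter_eq_right.mpr hs]

theorem inner_sum (t : Finset ℕ) (c : ℤ) (b : ℕ → ℤ) :
    ∑ j ∈ t, (1 + c * b j) = (t.card : ℤ) + c * ∑ j ∈ t, b j := by
  rw [Finset.sum_add_distrib, Finset.mul_sum]
  simp

theorem inner_sum' (t : Finset ℕ) (c : ℤ) (b : ℕ → ℤ) :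
    ∑ j ∈ t, (1 + b j * c) = (t.card : ℤ) + c * ∑ j ∈ t, b j := by
  rw [Finset.sum_add_distrib, Finset.mul_sum]
  simp only [sum_const, nsmul_eq_mul, mul_one]
  congr 1
  exact Finset.sum_congr rfl fun j _ => by ring

/-- The crossings of two stars, by blocks. -/
theorem cr2_decomp (k g h : ℕ) (a b : ℕ → ℤ) (hgh : g ≤ h) (hh : h ≤ 2 * k + 1) :
    cr2 k g h a b = ∑ l ∈ range g, ((l : ℤ) + b l * sumL a l)
      + ∑ l ∈ Ico g h, (((l : ℤ) - g) + a l * ∑ j ∈ Ico g l, b j)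
      + ∑ l ∈ Ico h (2 * k + 1), ((2 * (k : ℤ) - l) + a l * sumR k b l)
      + ((g : ℤ) * (2 * k + 1 - h) + Xp k a h * sumL b g) := by
  unfold cr2
  have hsplit : ∀ i j : ℕ, (if Rel g h i j then 1 + a i * b j else 0)
      = (if i < j ∧ j < g then 1 + a i * b j else 0)
        + (if g ≤ j ∧ j < i ∧ i < h then 1 + a i * b j else 0)
        + (if h ≤ i ∧ i < j then 1 + a i * b j else 0)
        + (if h ≤ i ∧ j < g then 1 + a i * b j else 0) := by
    intro i j
    by_cases c1 : i < j ∧ j < g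
    · have c2 : ¬ (g ≤ j ∧ j < i ∧ i < h) := by omega
      have c3 : ¬ (h ≤ i ∧ i < j) := by omega
      have c4 : ¬ (h ≤ i ∧ j < g) := by omega
      rw [if_pos (show Rel g h i j from Or.inl c1), if_pos c1, if_neg c2, if_neg c3, if_neg c4]; simp
    · by_cases c2 : g ≤ j ∧ j < i ∧ i < h
      · have c3 : ¬ (h ≤ i ∧ i < j) := by omega
        have c4 : ¬ (h ≤ i ∧ j < g) := by omega
        rw [if_pos (show Rel g h i j from Or.inr (Or.inl c2)), if_neg c1, if_pos c2, if_neg c3, if_neg c4]; simp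
      · by_cases c3 : h ≤ i ∧ i < j
        · have c4 : ¬ (h ≤ i ∧ j < g) := by omega
          rw [if_pos (show Rel g h i j from Or.inr (Or.inr (Or.inl c3))), if_neg c1, if_neg c2, if_pos c3, if_neg c4]; simp
        · by_cases c4 : h ≤ i ∧ j < g
          · rw [if_pos (show Rel g h i j from Or.inr (Or.inr (Or.inr c4))), if_neg c1, if_neg c2, if_neg c3, if_pos c4]; simp
          · rw [if_neg (show ¬ Rel g h i j by unfold Rel; tauto), if_neg c1, if_neg c2, if_neg c3, if_neg c4]; simp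
  simp only [hsplit, Finset.sum_add_distrib]
  have p1 : ∑ i ∈ range (2 * k + 1), ∑ j ∈ range (2 * k + 1), (if i < j ∧ j < g then 1 + a i * b j else 0)
      = ∑ l ∈ range g, ((l : ℤ) + b l * sumL a l) := by
    rw [Finset.sum_comm]
    rw [dbl (2 * k + 1) (fun j i => i < j ∧ j < g) (range g) (fun j => range j)
      (fun j i => 1 + a i * b j)]
    · refine Finset.sum_congr rfl fun l _ => ?_
      rw [inner_sum', card_range]
      rfl
    · intro x; simp only [mem_range]; omega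
    · intro i hi x; simp only [mem_range] at hi ⊢; omega
    · intro i j _ _; simp only [mem_range]; omega
  have p2 : ∑ i ∈ range (2 * k + 1), ∑ j ∈ range (2 * k + 1),
      (if g ≤ j ∧ j < i ∧ i < h then 1 + a i * b j else 0)
      = ∑ l ∈ Ico g h, (((l : ℤ) - g) + a l * ∑ j ∈ Ico g l, b j) := by
    rw [dbl (2 * k + 1) (fun i j => g ≤ j ∧ j < i ∧ i < h) (Ico g h) (fun i => Ico g i)
      (fun i j => 1 + a i * b j)]
    · refine Finset.sum_congr rfl fun l hl => ?_
      rw [inner_sum, Nat.card_Ico, Nat.cast_sub (mem_Ico.mp hl).1]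
    · intro x; simp only [mem_range, mem_Ico]; omega
    · intro i hi x; simp only [mem_range, mem_Ico] at hi ⊢; omega
    · intro i j _ _; simp only [mem_Ico]; omega
  have p3 : ∑ i ∈ range (2 * k + 1), ∑ j ∈ range (2 * k + 1),
      (if h ≤ i ∧ i < j then 1 + a i * b j else 0)
      = ∑ l ∈ Ico h (2 * k + 1), ((2 * (k : ℤ) - l) + a l * sumR k b l) := by
    rw [dbl (2 * k + 1) (fun i j => h ≤ i ∧ i < j) (Ico h (2 * k + 1)) (fun i => Ioc i (2 * k))
      (fun i j => 1 + a i * b j)]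
    · refine Finset.sum_congr rfl fun l hl => ?_
      have hl' := (mem_Ico.mp hl).2
      rw [inner_sum, Nat.card_Ioc, Nat.cast_sub (by omega)]
      push_cast
      rfl
    · intro x; simp only [mem_range, mem_Ico]; omega
    · intro i hi x; simp only [mem_range, mem_Ioc, mem_Ico] at hi ⊢; omega
    · intro i j _ _; simp only [mem_Ico, mem_Ioc]; omega
  have p4 : ∑ i ∈ range (2 * k + 1), ∑ j ∈ range (2 * k + 1),
      (if h ≤ i ∧ j < g then 1 + a i * b j else 0)
      = (g : ℤ) * (2 * k + 1 - h) + Xp k a h * sumL b g := by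
    rw [dbl (2 * k + 1) (fun i j => h ≤ i ∧ j < g) (Ico h (2 * k + 1)) (fun _ => range g)
      (fun i j => 1 + a i * b j)]
    · have : ∀ l ∈ Ico h (2 * k + 1), ∑ j ∈ range g, (1 + a l * b j) = (g : ℤ) + a l * sumL b g := by
        intro l _
        rw [inner_sum, card_range]
        rfl
      rw [Finset.sum_congr rfl this, Finset.sum_add_distrib, ← Finset.sum_mul]
      simp only [sum_const, Nat.card_Ico, nsmul_eq_mul]
      rw [Nat.cast_sub hh]
      unfold Xp
      push_cast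
      ring
    · intro x; simp only [mem_range, mem_Ico]; omega
    · intro i _ x; simp only [mem_range]; omega
    · intro i j _ _; simp only [mem_Ico, mem_range]; omega
  rw [p1, p2, p3, p4]
  simp only [Finset.sum_add_distrib]


theorem grp_left {k g h l : ℕ} (a b : ℕ → ℤ) (ha : ∀ i, a i = 1 ∨ a i = -1)
    (hb : ∀ i, b i = 1 ∨ b i = -1) (hgh : g ≤ h) (hh : h ≤ k) (hl : l < g) :
    grpAgree k g h a b l = 2 * (l : ℤ) - |sumL a l - sumL b l| := by
  unfold grpAgree
  rw [if_pos (Or.inr ⟨hl, by omega⟩), certC_left (by omega) hl a ha,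
    certC_left hh (by omega) b hb, wd_left (by omega)]

theorem grp_mid {k g h l : ℕ} (a b : ℕ → ℤ) (hb : ∀ i, b i = 1 ∨ b i = -1) (hh : h ≤ k)
    (hgl : g ≤ l) (hlh : l < h) : grpAgree k g h a b l = |certC k g a l + sumL b l| := by
  unfold grpAgree
  rw [if_neg (by omega), certC_left hh hlh b hb]

theorem grp_right {k g h l : ℕ} (a b : ℕ → ℤ) (hgh : g ≤ h) (hhl : h ≤ l) :
    grpAgree k g h a b l = 2 * wd k l - |certC k g a l - certC k h b l| := by
  unfold grpAgree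
  rw [if_pos (Or.inl ⟨by omega, hhl⟩)]

theorem sum_self_left (b : ℕ → ℤ) (hb : ∀ i, b i = 1 ∨ b i = -1) (g : ℕ) :
    2 * ∑ l ∈ range g, (b l * sumL b l - (l : ℤ)) = (sumL b g) ^ 2 - (g : ℤ) ^ 2 := by
  induction g with
  | zero => simp [sumL]
  | succ g ih =>
    rw [sum_range_succ, mul_add, ih]
    have h1 : sumL b (g + 1) = sumL b g + b g := by
      unfold sumL; rw [sum_range_succ]
    rw [h1]
    have h2 : b g * b g = 1 := by rcases hb g with h | h <;> rw [h] <;> norm_num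
    push_cast
    linear_combination (-1 : ℤ) * h2

theorem Xp_succ (k : ℕ) (a : ℕ → ℤ) {l : ℕ} (hl : l < 2 * k + 1) :
    Xp k a l = a l + Xp k a (l + 1) := by
  unfold Xp
  exact Finset.sum_eq_sum_Ico_succ_bot hl a

theorem sum_self_right (k : ℕ) (a : ℕ → ℤ) (ha : ∀ i, a i = 1 ∨ a i = -1) :
    ∀ l, l ≤ 2 * k + 1 →
      2 * ∑ i ∈ Ico l (2 * k + 1), a i * sumR k a i = (Xp k a l) ^ 2 - (2 * (k : ℤ) + 1 - l) := by
  refine down_ind (N := 2 * k + 1) ?_ ?_
  · simp [Xp]
  · intro l hl ih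
    rw [Finset.sum_eq_sum_Ico_succ_bot hl, mul_add, ih, Xp_succ k a hl, sumR_eq]
    have h2 : a l * a l = 1 := by rcases ha l with h | h <;> rw [h] <;> norm_num
    push_cast
    linear_combination (-1 : ℤ) * h2

theorem sum_s (k : ℕ) : ∀ l, l ≤ 2 * k + 1 →
    2 * ∑ i ∈ Ico l (2 * k + 1), (2 * (k : ℤ) - i) = (2 * (k : ℤ) + 1 - l) * (2 * (k : ℤ) - l) := by
  refine down_ind (N := 2 * k + 1) ?_ ?_
  · simp
  · intro l hl ih
    rw [Finset.sum_eq_sum_Ico_succ_bot hl, mul_add, ih]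
    push_cast
    ring

theorem sum_wd_range (k : ℕ) : ∑ l ∈ range (2 * k + 1), wd k l = (k : ℤ) ^ 2 := by
  have h := sum_min_aux k
  have h2 : ∀ l ∈ range (2 * k + 1), wd k l = ((min l (2 * k - l) : ℕ) : ℤ) := by
    intro l hl
    have := mem_range.mp hl
    unfold wd
    omega
  rw [Finset.sum_congr rfl h2]
  exact_mod_cast h

theorem sum_wd_left (k h : ℕ) (hh : h ≤ k + 1) :
    2 * ∑ l ∈ range h, wd k l = (h : ℤ) * ((h : ℤ) - 1) := by
  induction h with
  | zero => simp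
  | succ h ih =>
    rw [sum_range_succ, mul_add, ih (by omega), wd_left (by omega)]
    push_cast
    ring

theorem sum_wd_right (k h : ℕ) (hh : h ≤ k) :
    2 * ∑ l ∈ Ico h (2 * k + 1), wd k l = 2 * (k : ℤ) ^ 2 - (h : ℤ) * ((h : ℤ) - 1) := by
  have h1 := Finset.sum_range_add_sum_Ico (wd k) (by omega : h ≤ 2 * k + 1)
  rw [sum_wd_range] at h1
  have h2 := sum_wd_left k h (by omega)
  linarith

/-- The walk on the block `[g, h)`: the sum is independent of the order. -/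
theorem walk (k g h : ℕ) (hgh : g ≤ h) (hh : h ≤ 2 * k + 1) (a : ℕ → ℤ)
    (ha : ∀ i, a i = 1 ∨ a i = -1) (Z F : ℤ)
    (hF : Xp k a h + Z = 2 * F + ((h : ℤ) - g) - 1) :
    ∀ l, l ≤ h → g ≤ l → ∃ p q : ℤ, 0 ≤ p ∧ 0 ≤ q ∧ p + q = (h : ℤ) - l ∧
      Xp k a l = Xp k a h + p - q ∧
      ∑ i ∈ Ico l h, |sumR k a i + Z - a i * ((i : ℤ) - g)|
        = H2 (F + p) - H2 F + H2 (F + ((h : ℤ) - g)) - H2 (F + ((h : ℤ) - g) - q) := by
  refine down_ind (N := h) ?_ ?_
  · intro _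
    exact ⟨0, 0, le_rfl, le_rfl, by simp, by simp, by simp⟩
  · intro l hl ih hgl
    obtain ⟨p, q, hp, hq, hpq, hX, hS⟩ := ih (by omega)
    have hl2 : l < 2 * k + 1 := by omega
    have hlh : (l : ℤ) + 1 ≤ h := by exact_mod_cast hl
    rw [Nat.cast_add, Nat.cast_one] at hpq
    rw [Finset.sum_eq_sum_Ico_succ_bot hl, hS, sumR_eq, hX]
    rcases ha l with hal | hal
    · refine ⟨p + 1, q, by omega, hq, by omega, ?_, ?_⟩
      · rw [Xp_succ k a hl2, hX, hal]; ring
      · rw [hal, show (F + (p + 1)) = (F + p) + 1 by ring, H2_succ]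
        have e : Xp k a h + p - q + Z - 1 * ((l : ℤ) - g) = 2 * (F + p) := by omega
        rw [e, abs_mul, abs_two]
        ring
    · refine ⟨p, q + 1, hp, by omega, by omega, ?_, ?_⟩
      · rw [Xp_succ k a hl2, hX, hal]; ring
      · rw [hal]
        have e : Xp k a h + p - q + Z - -1 * ((l : ℤ) - g) = 2 * (F + ((h : ℤ) - g) - (q + 1)) := by omega
        have e2 : F + ((h : ℤ) - g) - q = (F + ((h : ℤ) - g) - (q + 1)) + 1 := by ring
        rw [e, abs_mul, abs_two, e2, H2_succ]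
        ring

theorem walk_total (k g h : ℕ) (hgh : g ≤ h) (hh : h ≤ 2 * k + 1) (a : ℕ → ℤ)
    (ha : ∀ i, a i = 1 ∨ a i = -1) (Z F : ℤ)
    (hF : Xp k a h + Z = 2 * F + ((h : ℤ) - g) - 1) :
    ∑ i ∈ Ico g h, |sumR k a i + Z - a i * ((i : ℤ) - g)| = H2 (F + ((h : ℤ) - g)) - H2 F := by
  obtain ⟨p, q, -, -, hpq, -, hS⟩ := walk k g h hgh hh a ha Z F hF g hgh le_rfl
  rw [hS, show F + ((h : ℤ) - g) - q = F + p by linarith]
  ring

/-- **`KeyIneq` for `g ≤ h ≤ k`.** -/
theorem key_same (k g h : ℕ) (a b : ℕ → ℤ) (hgh : g ≤ h) (hh : h ≤ k)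
    (ha : ∀ i, a i = 1 ∨ a i = -1) (hb : ∀ i, b i = 1 ∨ b i = -1) :
    ∑ l ∈ Icc 1 (2 * k - 1), grpAgree k g h a b l ≤ cr2 k g h a b := by
  have hg : g ≤ k := hgh.trans hh
  have hh2 : h ≤ 2 * k + 1 := by omega
  -- the two ends of the range
  have h0 : ∑ l ∈ Icc 1 (2 * k - 1), grpAgree k g h a b l
      = ∑ l ∈ range (2 * k + 1), grpAgree k g h a b l := by
    refine Finset.sum_subset ?_ ?_
    · intro x; simp only [mem_Icc, mem_range]; omega
    · intro x hx hx'
      simp only [mem_Icc, mem_range] at hx hx'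
      exact grp_zero a b (by omega)
  have hsplit : ∑ l ∈ range (2 * k + 1), grpAgree k g h a b l
      = ∑ l ∈ range g, grpAgree k g h a b l + ∑ l ∈ Ico g h, grpAgree k g h a b l
        + ∑ l ∈ Ico h (2 * k + 1), grpAgree k g h a b l := by
    have s1 := Finset.sum_range_add_sum_Ico (grpAgree k g h a b) hgh
    have s2 := Finset.sum_range_add_sum_Ico (grpAgree k g h a b) hh2
    linarith
  rw [h0, hsplit, cr2_decomp k g h a b hgh hh2]
  -- the values on the block `l < g`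
  have hI : ∑ l ∈ range g, (b l * sumL b l - (l : ℤ))
      ≤ ∑ l ∈ range g, ((l : ℤ) + b l * sumL a l) - ∑ l ∈ range g, grpAgree k g h a b l := by
    rw [← Finset.sum_sub_distrib]
    refine Finset.sum_le_sum fun l hl => ?_
    rw [grp_left a b ha hb hgh hh (mem_range.mp hl)]
    exact loc_I _ _ _ _ (hb l)
  -- the block `g ≤ l < h`
  set Z2 : ℤ := sumL b g with hZ2
  have hZ2b : |Z2| ≤ g := by
    have := abs_sum_sign (range g) b hb
    rwa [card_range] at this
  have hZ2b' := abs_le.mp hZ2b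
  have hII : ∑ l ∈ Ico g h, (|certC k g a l - sumR k a l| - |sumR k a l + Z2 - a l * ((l : ℤ) - g)|)
      ≤ ∑ l ∈ Ico g h, (((l : ℤ) - g) + a l * ∑ j ∈ Ico g l, b j)
        - ∑ l ∈ Ico g h, grpAgree k g h a b l := by
    rw [← Finset.sum_sub_distrib]
    refine Finset.sum_le_sum fun l hl => ?_
    obtain ⟨hl1, hl2⟩ := mem_Ico.mp hl
    rw [grp_mid a b hb hh hl1 hl2]
    have hY : sumL b l = Z2 + ∑ j ∈ Ico g l, b j :=
      (Finset.sum_range_add_sum_Ico b hl1).symm
    have hQ := abs_sum_sign (Ico g l) b hb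
    rw [Nat.card_Ico, Nat.cast_sub hl1] at hQ
    have hQ' := abs_le.mp hQ
    have hC : certC k g a l = a l * max (a l * clampZ (l : ℤ) (sumR k a l))
        (clampZ (l : ℤ) ((l : ℤ) - 2 * g)) := by
      unfold certC
      rw [if_pos hl1, wd_left (by omega)]
    rw [hY, hC]
    have hgl' : (g : ℤ) ≤ l := by exact_mod_cast hl1
    exact loc_II (l : ℤ) (g : ℤ) (a l) (sumR k a l) Z2 (∑ j ∈ Ico g l, b j) (ha l) (by positivity) hgl'
      (by linarith [hQ'.1]) hQ'.2 hZ2b'.1 hZ2b'.2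
  -- the block `h ≤ l`
  have hIII : ∑ l ∈ Ico h (2 * k + 1), (((2 * (k : ℤ) - l) - 2 * wd k l) + a l * sumR k a l
        + |certC k g a l - sumR k a l| - 2 * bad k a l - |certC k h b l - sumR k b l|)
      ≤ ∑ l ∈ Ico h (2 * k + 1), ((2 * (k : ℤ) - l) + a l * sumR k b l)
        - ∑ l ∈ Ico h (2 * k + 1), grpAgree k g h a b l := by
    rw [← Finset.sum_sub_distrib]
    refine Finset.sum_le_sum fun l hl => ?_
    obtain ⟨hl1, hl2⟩ := mem_Ico.mp hl
    rw [grp_right a b hgh hl1]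
    have hC : certC k g a l = a l * max (a l * clampZ (wd k l) (sumR k a l))
        (clampZ (wd k l) ((l : ℤ) - 2 * g)) := by
      unfold certC
      rw [if_pos (by omega)]
    have hW : 0 ≤ wd k l := wd_nonneg (by omega)
    have := loc_III (wd k l) ((l : ℤ) - 2 * g) (a l) (sumR k a l) (sumR k b l) (certC k h b l) (ha l) hW
    rw [← hC] at this
    unfold bad
    linarith
  -- closed forms
  have hDa := sum_delta k g hg a ha
  have hDb := sum_delta k h hh b hb
  have hDa2 := Finset.sum_Ico_consecutive (fun l => |certC k g a l - sumR k a l|) hgh hh2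
  obtain ⟨T, T0, hT, hT0, hTT, hXT, hBad⟩ := sum_bad k g hg a ha h hh2 hgh
  have hAX := sum_self_right k a ha h hh2
  have hSs := sum_s k h hh2
  have hWd := sum_wd_right k h hh
  have hSL := sum_self_left b hb g
  obtain ⟨t, ht⟩ := sum_sign_parity (range g) b hb
  rw [card_range] at ht
  have ht' : Z2 = 2 * t + g := ht
  set F : ℤ := T + t + g - k with hF
  have hW := walk_total k g h hgh hh2 a ha Z2 F (by rw [hXT, ht', hF]; linarith)
  -- monotonicity of the potential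
  have hm1 : gq (T - k) ≤ gq F := gq_mono (by rw [hF]; linarith [hZ2b'.1])
  have hm2 : gq (T0 - k) ≤ gq (1 - (F + ((h : ℤ) - g))) :=
    gq_mono (by rw [hF]; linarith [hZ2b'.2])
  have hs1 := gq_split F
  have hs2 := gq_split (F + ((h : ℤ) - g))
  -- the sums on the block `h ≤ l`, separated
  have hIIIs : ∑ l ∈ Ico h (2 * k + 1), (((2 * (k : ℤ) - l) - 2 * wd k l) + a l * sumR k a l
        + |certC k g a l - sumR k a l| - 2 * bad k a l - |certC k h b l - sumR k b l|)
      = ∑ l ∈ Ico h (2 * k + 1), (2 * (k : ℤ) - l) - 2 * ∑ l ∈ Ico h (2 * k + 1), wd k l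
        + ∑ l ∈ Ico h (2 * k + 1), a l * sumR k a l
        + ∑ l ∈ Ico h (2 * k + 1), |certC k g a l - sumR k a l|
        - 2 * ∑ l ∈ Ico h (2 * k + 1), bad k a l
        - ∑ l ∈ Ico h (2 * k + 1), |certC k h b l - sumR k b l| := by
    simp only [Finset.sum_add_distrib, Finset.sum_sub_distrib, Finset.mul_sum]
  have hIIs : ∑ l ∈ Ico g h, (|certC k g a l - sumR k a l| - |sumR k a l + Z2 - a l * ((l : ℤ) - g)|)
      = ∑ l ∈ Ico g h, |certC k g a l - sumR k a l|
        - ∑ l ∈ Ico g h, |sumR k a l + Z2 - a l * ((l : ℤ) - g)| := by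
    rw [Finset.sum_sub_distrib]
  rw [hIIIs] at hIII
  rw [hIIs, hW] at hII
  unfold H2 at hII
  rw [hBad] at hIII
  rw [hXT] at hAX
  rw [hXT]
  have hT0e : T0 = 2 * (k : ℤ) + 1 - h - T := by linarith
  subst hT0e
  -- final arithmetic
  have hid : (2 * t + (g : ℤ)) ^ 2 - (g : ℤ) ^ 2
      + 2 * (((k : ℤ) - g) * ((k : ℤ) - g + 1))
      + (2 * (k : ℤ) + 1 - h) * (2 * (k : ℤ) - h)
      - 2 * (2 * (k : ℤ) ^ 2 - (h : ℤ) * ((h : ℤ) - 1))
      + ((T - (2 * (k : ℤ) + 1 - h - T)) ^ 2 - (2 * (k : ℤ) + 1 - h))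
      - 2 * (((k : ℤ) - h) * ((k : ℤ) - h + 1))
      + 2 * ((g : ℤ) * (2 * (k : ℤ) + 1 - h) + (T - (2 * (k : ℤ) + 1 - h - T)) * (2 * t + g))
      = 2 * (F * (F - 1)) + 2 * ((F + ((h : ℤ) - g)) * (F + ((h : ℤ) - g) - 1)) := by
    rw [hF]; ring
  rw [← hZ2, ht'] at hSL
  rw [ht']
  linarith

end Vale.Agent.Lib.P040.Gen.SameSide
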