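import Mathlib

/-!
helper19 abstract lemma for the middle arc of two stars (two-page drawings).
`x`, `y` are words, positions `i < n`. `cnt y i` = ones of `y` before `i`; `after x n i` = ones of `x`
strictly between `i` and `n`. The labels `lab`, `lab'` are bijections onto `{0, ..., n-1}`.
-/

namespace Vale.Agent.Lib.P040.Abs

open Finset

/-- Ones of `y` before `i`. -/
def cnt (y : ℕ → Bool) : ℕ → ℕ
  | 0 => 0
  | i + 1 => cnt y i + if y i = true then 1 else 0

/-- Ones of `x` at positions `v` with `i < v < n`. -/
def after (x : ℕ → Bool) : ℕ → ℕ → ℕ
  | 0, _ => 0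
  | n + 1, i => after x n i + if i < n ∧ x n = true then 1 else 0

/-- Label of position `i` for the word `x`: ones from the right, then zeros from the left. -/
def lab (x : ℕ → Bool) (n i : ℕ) : ℕ := if x i = true then after x n i else after x n i + i

/-- Label of position `i` for the word `y`: ones from the left, then zeros from the right. -/
def lab' (y : ℕ → Bool) (n i : ℕ) : ℕ := if y i = true then cnt y i else cnt y i + (n - 1 - i)

/-- The error term. -/
def xi (x y : ℕ → Bool) (V : ℕ → ℤ) (n i : ℕ) : ℤ :=
  V (lab' y n i) - V (lab x n i) +
    (if y i = true then (after x n i : ℤ) else -((n : ℤ) - 1 - i - after x n i))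

/-- Number of pairs `u < v < n` with `y u = x v`, as an integer. -/
def T (x y : ℕ → Bool) : ℕ → ℤ
  | 0 => 0
  | n + 1 => T x y n + if x n = true then (cnt y n : ℤ) else (n : ℤ) - cnt y n

theorem cnt_le (y : ℕ → Bool) (i : ℕ) : cnt y i ≤ i := by
  induction i with
  | zero => simp [cnt]
  | succ i ih =>
    simp only [cnt]
    split_ifs <;> omega

theorem after_self (x : ℕ → Bool) (n i : ℕ) (h : n ≤ i) : after x n i = 0 := by
  induction n with
  | zero => simp [after]
  | succ n ih =>
    simp only [after]
    have h1 : ¬ (i < n ∧ x n = true) := by
      rintro ⟨h2, -⟩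
      omega
    rw [if_neg h1, ih (by omega)]

theorem after_succ_of_lt (x : ℕ → Bool) (n i : ℕ) (h : i < n) :
    after x (n + 1) i = after x n i + if x n = true then 1 else 0 := by
  simp only [after]
  by_cases hx : x n = true <;> simp [hx, h]

theorem after_le (x : ℕ → Bool) (n i : ℕ) (h : i < n) : after x n i ≤ n - 1 - i := by
  induction n with
  | zero => omega
  | succ n ih =>
    by_cases h1 : i < n
    · have := ih h1
      rw [after_succ_of_lt x n i h1]
      split_ifs <;> omega
    · have h2 : i = n := by omega
      subst h2
      simp only [after]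
      rw [after_self x i i (le_refl _)]
      simp

/-- Telescoping identity for the ones of `y`. -/
theorem ones_tel (y : ℕ → Bool) (V : ℕ → ℤ) (n : ℕ) :
    (∑ i ∈ range n, if y i = true then 1 - (V (cnt y i + 1) - V (cnt y i)) else 0) +
      V (cnt y n) - V 0 = cnt y n := by
  induction n with
  | zero => simp [cnt]
  | succ n ih =>
    rw [Finset.sum_range_succ]
    simp only [cnt]
    by_cases hy : y n = true
    · simp only [if_pos hy]
      push_cast
      linarith
    · simp only [if_neg hy]
      push_cast
      simp only [add_zero] at *
      linarith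

theorem lab'_succ_false (y : ℕ → Bool) (n i : ℕ) (hi : i < n) (hy : ¬ y i = true) :
    lab' y (n + 1) i = lab' y n i + 1 := by
  unfold lab'
  simp only [if_neg hy]
  omega

/-- Telescoping identity for the zeros of `y`. -/
theorem zeros_tel (y : ℕ → Bool) (n : ℕ) : ∀ V : ℕ → ℤ,
    (∑ i ∈ range n, if y i = true then 0 else 1 - (V (lab' y n i + 1) - V (lab' y n i))) +
      V n - V (cnt y n) = (n : ℤ) - cnt y n := by
  induction n with
  | zero => intro V; simp [cnt]
  | succ n ih =>
    intro V
    have h0 := ih (fun s => V (s + 1))
    rw [Finset.sum_range_succ]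
    have h1 : ∑ i ∈ range n, (if y i = true then (0 : ℤ) else
        1 - (V (lab' y (n + 1) i + 1) - V (lab' y (n + 1) i))) =
        ∑ i ∈ range n, if y i = true then (0 : ℤ) else
          1 - (V (lab' y n i + 1 + 1) - V (lab' y n i + 1)) := by
      refine Finset.sum_congr rfl fun i hi => ?_
      by_cases hy : y i = true
      · simp [hy]
      · simp only [if_neg hy]
        rw [lab'_succ_false y n i (Finset.mem_range.mp hi) hy]
    rw [h1]
    have h2 : lab' y (n + 1) n = cnt y n := by
      unfold lab'
      split_ifs <;> omega
    rw [h2]
    simp only [cnt]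
    by_cases hy : y n = true
    · simp only [if_pos hy]
      push_cast
      linarith
    · simp only [if_neg hy]
      push_cast
      simp only [add_zero] at *
      linarith

theorem lab_succ_true (x : ℕ → Bool) (n i : ℕ) (hi : i < n) (hx : x n = true) :
    lab x (n + 1) i = lab x n i + 1 := by
  unfold lab
  rw [after_succ_of_lt x n i hi]
  simp only [if_pos hx]
  split_ifs <;> omega

theorem lab_succ_false (x : ℕ → Bool) (n i : ℕ) (hi : i < n) (hx : ¬ x n = true) :
    lab x (n + 1) i = lab x n i := by
  unfold lab
  rw [after_succ_of_lt x n i hi]
  simp only [if_neg hx]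
  split_ifs <;> omega

theorem lab_last_true (x : ℕ → Bool) (n : ℕ) (hx : x n = true) : lab x (n + 1) n = 0 := by
  unfold lab
  simp only [if_pos hx, after]
  rw [after_self x n n (le_refl _)]
  simp

theorem lab_last_false (x : ℕ → Bool) (n : ℕ) (hx : ¬ x n = true) : lab x (n + 1) n = n := by
  unfold lab
  simp only [if_neg hx, after]
  rw [after_self x n n (le_refl _)]
  simp

/-- `lab` is a bijection onto `{0, ..., n-1}`. -/
theorem sum_lab (x : ℕ → Bool) (n : ℕ) : ∀ f : ℕ → ℤ,
    ∑ i ∈ range n, f (lab x n i) = ∑ s ∈ range n, f s := by
  induction n with
  | zero => intro f; simp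
  | succ n ih =>
    intro f
    rw [Finset.sum_range_succ]
    by_cases hx : x n = true
    · rw [lab_last_true x n hx]
      have h1 : ∑ i ∈ range n, f (lab x (n + 1) i) = ∑ i ∈ range n, f (lab x n i + 1) :=
        Finset.sum_congr rfl fun i hi => by
          rw [lab_succ_true x n i (Finset.mem_range.mp hi) hx]
      rw [h1, ih (fun s => f (s + 1)), Finset.sum_range_succ']
    · rw [lab_last_false x n hx]
      have h1 : ∑ i ∈ range n, f (lab x (n + 1) i) = ∑ i ∈ range n, f (lab x n i) :=
        Finset.sum_congr rfl fun i hi => by
          rw [lab_succ_false x n i (Finset.mem_range.mp hi) hx]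
      rw [h1, ih f, Finset.sum_range_succ]

theorem mono_le {V : ℕ → ℤ} (hV : ∀ s, V s ≤ V (s + 1)) {a b : ℕ} (h : a ≤ b) : V a ≤ V b := by
  induction b with
  | zero =>
    have : a = 0 := by omega
    rw [this]
  | succ b ih =>
    rcases Nat.lt_or_ge a (b + 1) with h1 | h1
    · exact (ih (by omega)).trans (hV b)
    · have : a = b + 1 := by omega
      rw [this]

/-- helper19 abstract lemma. -/
theorem abs_lemma (x y : ℕ → Bool) (n : ℕ) : ∀ V : ℕ → ℤ,
    (∀ s, V s ≤ V (s + 1)) → (∀ s, V (s + 1) ≤ V s + 1) →
    ∑ i ∈ range n, |xi x y V n i| ≤ T x y n := by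
  induction n with
  | zero => intro V _ _; simp [T]
  | succ n ih =>
    intro V hV1 hV2
    rw [Finset.sum_range_succ]
    simp only [T]
    by_cases hx : x n = true
    · -- new letter of `x` is a one
      have hIH := ih (fun s => V (s + 1)) (fun s => hV1 _) (fun s => hV2 _)
      have hlast : xi x y V (n + 1) n = V (cnt y n) - V 0 := by
        unfold xi
        rw [lab_last_true x n hx]
        have h2 : lab' y (n + 1) n = cnt y n := by
          unfold lab'
          split_ifs <;> omega
        rw [h2]
        have h3 : after x (n + 1) n = 0 := by
          simp only [after]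
          rw [after_self x n n (le_refl _)]
          simp
        rw [h3]
        split_ifs <;> simp
      have hterm : ∀ i ∈ range n, |xi x y V (n + 1) i| ≤
          |xi x y (fun s => V (s + 1)) n i| +
            (if y i = true then 1 - (V (cnt y i + 1) - V (cnt y i)) else 0) := by
        intro i hi
        have hi' := Finset.mem_range.mp hi
        have hlab := lab_succ_true x n i hi' hx
        have haft := after_succ_of_lt x n i hi'
        simp only [if_pos hx] at haft
        by_cases hy : y i = true
        · have h1 : xi x y V (n + 1) i = xi x y (fun s => V (s + 1)) n i +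
              (1 - (V (cnt y i + 1) - V (cnt y i))) := by
            unfold xi
            have h2 : lab' y (n + 1) i = cnt y i := by simp [lab', hy]
            have h3 : lab' y n i = cnt y i := by simp [lab', hy]
            rw [h2, h3, hlab, haft]
            simp only [if_pos hy]
            push_cast
            ring
          rw [h1]
          simp only [if_pos hy]
          have h4 : 0 ≤ 1 - (V (cnt y i + 1) - V (cnt y i)) := by
            have := hV2 (cnt y i)
            linarith
          exact (abs_add_le _ _).trans (by rw [abs_of_nonneg h4])
        · have h1 : xi x y V (n + 1) i = xi x y (fun s => V (s + 1)) n i := by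
            unfold xi
            rw [lab'_succ_false y n i hi' hy, hlab, haft]
            simp only [if_neg hy]
            push_cast
            ring
          rw [h1]
          simp [hy]
      have hsum := Finset.sum_le_sum hterm
      rw [Finset.sum_add_distrib] at hsum
      have htel := ones_tel y V n
      have hnn : 0 ≤ V (cnt y n) - V 0 := by
        have := mono_le hV1 (Nat.zero_le (cnt y n))
        linarith
      rw [hlast, abs_of_nonneg hnn]
      simp only [if_pos hx]
      linarith
    · -- new letter of `x` is a zero
      have hIH := ih V hV1 hV2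
      have hlast : xi x y V (n + 1) n = V (cnt y n) - V n := by
        unfold xi
        rw [lab_last_false x n hx]
        have h2 : lab' y (n + 1) n = cnt y n := by
          unfold lab'
          split_ifs <;> omega
        rw [h2]
        have h3 : after x (n + 1) n = 0 := by
          simp only [after]
          rw [after_self x n n (le_refl _)]
          simp
        rw [h3]
        split_ifs <;> simp
      have hterm : ∀ i ∈ range n, |xi x y V (n + 1) i| ≤
          |xi x y V n i| +
            (if y i = true then 0 else 1 - (V (lab' y n i + 1) - V (lab' y n i))) := by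
        intro i hi
        have hi' := Finset.mem_range.mp hi
        have hlab := lab_succ_false x n i hi' hx
        have haft := after_succ_of_lt x n i hi'
        simp only [if_neg hx, add_zero] at haft
        by_cases hy : y i = true
        · have h1 : xi x y V (n + 1) i = xi x y V n i := by
            unfold xi
            have h2 : lab' y (n + 1) i = cnt y i := by simp [lab', hy]
            have h3 : lab' y n i = cnt y i := by simp [lab', hy]
            rw [h2, h3, hlab, haft]
            simp only [if_pos hy]
          rw [h1]
          simp [hy]
        · have h1 : xi x y V (n + 1) i = xi x y V n i -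
              (1 - (V (lab' y n i + 1) - V (lab' y n i))) := by
            unfold xi
            rw [lab'_succ_false y n i hi' hy, hlab, haft]
            simp only [if_neg hy]
            push_cast
            ring
          rw [h1]
          simp only [if_neg hy]
          have h4 : 0 ≤ 1 - (V (lab' y n i + 1) - V (lab' y n i)) := by
            have := hV2 (lab' y n i)
            linarith
          exact (abs_sub _ _).trans (by rw [abs_of_nonneg h4])
      have hsum := Finset.sum_le_sum hterm
      rw [Finset.sum_add_distrib] at hsum
      have htel := zeros_tel y n V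
      have hnp : V (cnt y n) - V n ≤ 0 := by
        have := mono_le hV1 (cnt_le y n)
        linarith
      rw [hlast, abs_of_nonpos hnp]
      simp only [if_neg hx]
      linarith

/-- The value `tilde t` of a star read from the right. -/
def tx (x : ℕ → Bool) (V : ℕ → ℤ) (n i : ℕ) : ℤ :=
  if x i = true then V (after x n i) else V (after x n i + i) - i

/-- The value `tilde t prime` of a star read from the left. -/
def ty (y : ℕ → Bool) (V' : ℕ → ℤ) (n i : ℕ) : ℤ :=
  if y i = true then V' (cnt y i) else V' (cnt y i + (n - 1 - i)) - ((n : ℤ) - 1 - i)

/-- `Sum_M |g_i| <= T + Sum_s |D(s)|`, for any `V` and any nondecreasing 1-Lipschitz `V'`. -/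
theorem sum_abs_g (x y : ℕ → Bool) (n : ℕ) (V V' : ℕ → ℤ) (k : ℤ)
    (hV1 : ∀ s, V' s ≤ V' (s + 1)) (hV2 : ∀ s, V' (s + 1) ≤ V' s + 1) :
    ∑ i ∈ range n, |tx x V n i + ty y V' n i - k| ≤
      T x y n + ∑ s ∈ range n, |V s + V' s - s - k| := by
  have hterm : ∀ i ∈ range n, |tx x V n i + ty y V' n i - k| ≤
      |xi x y V' n i| + |V (lab x n i) + V' (lab x n i) - (lab x n i : ℕ) - k| := by
    intro i hi
    have hi' := Finset.mem_range.mp hi
    have hcast : ((n - 1 - i : ℕ) : ℤ) = (n : ℤ) - 1 - i := by omega
    have h1 : tx x V n i + ty y V' n i - k =
        xi x y V' n i + (V (lab x n i) + V' (lab x n i) - (lab x n i : ℕ) - k) := by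
      unfold tx ty xi lab lab'
      by_cases hx : x i = true
      · by_cases hy : y i = true
        · simp only [if_pos hx, if_pos hy]
          push_cast
          ring
        · simp only [if_pos hx, if_neg hy]
          push_cast
          ring
      · by_cases hy : y i = true
        · simp only [if_neg hx, if_pos hy]
          push_cast
          ring
        · simp only [if_neg hx, if_neg hy]
          push_cast
          ring
    rw [h1]
    exact abs_add_le _ _
  have h2 := Finset.sum_le_sum hterm
  rw [Finset.sum_add_distrib] at h2
  have h3 := sum_lab x n (fun s => |V s + V' s - (s : ℤ) - k|)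
  rw [h3] at h2
  have h4 := abs_lemma x y n V' hV1 hV2
  linarith

end Vale.Agent.Lib.P040.Abs
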