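import Vale.Agent.Lib.P040.TwoPageDefs

/-!
Reduction of the two-page lower bound to a finite table: a map from star types (gap, word of pages)
to `K`-bit words such that two stars agree in at most as many bits as they have crossings.
-/

namespace Vale.Agent.Lib.P040

open Finset

/-- Crossings between the stars of `r` and `s`. -/
def TwoPageDrawing.pairC {m n : ℕ} (D : TwoPageDrawing m n) (r s : Fin m) : ℕ :=
  ((univ : Finset (Fin n × Fin n)).filter fun p =>
    p.1 ≠ p.2 ∧ D.page r p.1 = D.page s p.2 ∧
      Alternate (D.posR r) (D.posB p.1) (D.posR s) (D.posB p.2)).card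

theorem TwoPageDrawing.crossings_eq {m n : ℕ} (D : TwoPageDrawing m n) :
    D.crossings = ∑ r : Fin m, ∑ s : Fin m, if r < s then D.pairC r s else 0 := by
  unfold TwoPageDrawing.crossings TwoPageDrawing.pairC
  simp only [card_filter]
  rw [Fintype.sum_prod_type]
  refine Finset.sum_congr rfl fun r _ => ?_
  rw [Fintype.sum_prod_type]
  refine Finset.sum_congr rfl fun s _ => ?_
  by_cases h : r < s
  · simp only [h, if_true, true_and]
  · simp only [h, if_false, false_and, Finset.sum_const_zero]

theorem alternate_symm {a b c d : ℕ} (_h1 : a ≠ b) (h2 : a ≠ c) (h3 : a ≠ d) (h4 : b ≠ c) (h5 : b ≠ d)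
    (h6 : c ≠ d) : Alternate a b c d ↔ Alternate c d a b := by
  unfold Alternate Between
  omega

theorem TwoPageDrawing.posR_inj {m n : ℕ} (D : TwoPageDrawing m n) {r s : Fin m}
    (h : D.posR r = D.posR s) : r = s := by
  have := @D.inj (Sum.inl r) (Sum.inl s) (by simpa using h)
  simpa using this

theorem TwoPageDrawing.posB_inj {m n : ℕ} (D : TwoPageDrawing m n) {x y : Fin n}
    (h : D.posB x = D.posB y) : x = y := by
  have := @D.inj (Sum.inr x) (Sum.inr y) (by simpa using h)
  simpa using this

theorem TwoPageDrawing.posR_ne_posB {m n : ℕ} (D : TwoPageDrawing m n) (r : Fin m) (x : Fin n) :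
    D.posR r ≠ D.posB x := by
  intro h
  have := @D.inj (Sum.inl r) (Sum.inr x) (by simpa using h)
  simp at this

theorem TwoPageDrawing.pairC_symm {m n : ℕ} (D : TwoPageDrawing m n) {r s : Fin m} (hrs : r ≠ s) :
    D.pairC r s = D.pairC s r := by
  unfold TwoPageDrawing.pairC
  refine Finset.card_bij (fun p _ => (p.2, p.1)) ?_ ?_ ?_
  · rintro ⟨x, y⟩ hp
    simp only [mem_filter, mem_univ, true_and] at hp ⊢
    obtain ⟨h1, h2, h3⟩ := hp
    refine ⟨h1.symm, h2.symm, ?_⟩
    refine (alternate_symm ?_ ?_ ?_ ?_ ?_ ?_).1 h3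
    · exact D.posR_ne_posB r x
    · exact fun h => hrs (D.posR_inj h)
    · exact D.posR_ne_posB r y
    · exact fun h => D.posR_ne_posB s x h.symm
    · exact fun h => h1 (D.posB_inj h)
    · exact D.posR_ne_posB s y
  · rintro ⟨x, y⟩ _ ⟨x', y'⟩ _ h
    simp only [Prod.mk.injEq] at h ⊢
    exact ⟨h.2, h.1⟩
  · rintro ⟨x, y⟩ hp
    simp only [mem_filter, mem_univ, true_and] at hp
    obtain ⟨h1, h2, h3⟩ := hp
    refine ⟨(y, x), ?_, rfl⟩
    simp only [mem_filter, mem_univ, true_and]
    refine ⟨h1.symm, h2.symm, ?_⟩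
    refine (alternate_symm ?_ ?_ ?_ ?_ ?_ ?_).1 h3
    · exact D.posR_ne_posB s x
    · exact fun h => hrs (D.posR_inj h).symm
    · exact D.posR_ne_posB s y
    · exact fun h => D.posR_ne_posB r x h.symm
    · exact fun h => h1 (D.posB_inj h)
    · exact D.posR_ne_posB r y

/-- position test along a strictly monotone sequence -/
theorem lt_iff_lt_card {n : ℕ} (f : Fin n → ℕ) (hf : StrictMono f) (p : ℕ) (i : Fin n) :
    f i < p ↔ i.val < ((univ : Finset (Fin n)).filter fun k => f k < p).card := by
  constructor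
  · intro h
    have hsub : Finset.Iic i ⊆ (univ : Finset (Fin n)).filter fun k => f k < p := by
      intro k hk
      simp only [mem_Iic] at hk
      simp only [mem_filter, mem_univ, true_and]
      exact lt_of_le_of_lt (hf.monotone hk) h
    have := Finset.card_le_card hsub
    rw [Fin.card_Iic] at this
    omega
  · intro h
    by_contra hn
    have hsub : ((univ : Finset (Fin n)).filter fun k => f k < p) ⊆ Finset.Iio i := by
      intro k hk
      simp only [mem_filter, mem_univ, true_and] at hk
      simp only [mem_Iio]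
      by_contra hk2
      have hik : i ≤ k := not_lt.1 hk2
      exact hn (lt_of_le_of_lt (hf.monotone hik) hk)
    have := Finset.card_le_card hsub
    rw [Fin.card_Iio] at this
    omega

/-- Bits agreeing among the first `K` bits. -/
def agree (K x y : ℕ) : ℕ := ∑ t : Fin K, if x.testBit t = y.testBit t then 1 else 0

/-- Crossing count between the stars of two red vertices, the first one to the left of the second
one, from the numbers `l1 ≤ l2` of blue vertices to their left and the words of pages. -/
def cntS (n l1 l2 a b : ℕ) : ℕ :=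
  ∑ i : Fin n, ∑ j : Fin n, if i.val ≠ j.val ∧
      Alternate (3 * l1) (3 * i.val + 2) (3 * l2 + 1) (3 * j.val + 2) ∧
      a.testBit i = b.testBit j then 1 else 0

/-- A two-colouring of `m` points has at least `zar m` monochromatic pairs. -/
theorem mono_count : ∀ (m : ℕ) (χ : Fin m → Bool), ∃ a b : ℕ, a + b = m ∧
    (∑ i, if χ i = true then 1 else 0) = a ∧ (∑ i, if χ i = false then 1 else 0) = b ∧
    2 * (∑ r : Fin m, ∑ s : Fin m, if r < s then (if χ r = χ s then 1 else 0) else 0) + m
      = a ^ 2 + b ^ 2 := by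
  intro m
  induction m with
  | zero =>
    intro χ
    exact ⟨0, 0, by simp⟩
  | succ m ih =>
    intro χ
    obtain ⟨a, b, hab, ha, hb, hM⟩ := ih (fun i => χ i.succ)
    have hsplit : (∑ r : Fin (m + 1), ∑ s : Fin (m + 1),
        if r < s then (if χ r = χ s then 1 else 0) else 0)
        = (∑ s : Fin m, if χ 0 = χ s.succ then 1 else 0)
          + ∑ r : Fin m, ∑ s : Fin m,
            if r < s then (if χ r.succ = χ s.succ then 1 else 0) else 0 := by
      rw [Fin.sum_univ_succ]
      congr 1
      · rw [Fin.sum_univ_succ]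
        simp [Fin.succ_pos]
      · refine Finset.sum_congr rfl fun r _ => ?_
        rw [Fin.sum_univ_succ]
        simp [Fin.succ_lt_succ_iff]
    cases h0 : χ 0 with
    | true =>
      refine ⟨a + 1, b, by omega, ?_, ?_, ?_⟩
      · rw [Fin.sum_univ_succ, h0]; simp only [if_true]; omega
      · rw [Fin.sum_univ_succ, h0]; simpa using hb
      · rw [hsplit, h0]
        have : (∑ s : Fin m, if true = χ s.succ then 1 else 0) = a := by
          rw [← ha]; refine Finset.sum_congr rfl fun s _ => ?_
          cases χ s.succ <;> simp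
        rw [this]
        nlinarith
    | false =>
      refine ⟨a, b + 1, by omega, ?_, ?_, ?_⟩
      · rw [Fin.sum_univ_succ, h0]; simpa using ha
      · rw [Fin.sum_univ_succ, h0]; simp only [if_true]; omega
      · rw [hsplit, h0]
        have : (∑ s : Fin m, if false = χ s.succ then 1 else 0) = b := by
          rw [← hb]; refine Finset.sum_congr rfl fun s _ => ?_
          cases χ s.succ <;> simp
        rw [this]
        nlinarith

theorem mono_pairs (m : ℕ) (χ : Fin m → Bool) :
    zar m ≤ ∑ r : Fin m, ∑ s : Fin m, if r < s then (if χ r = χ s then 1 else 0) else 0 := by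
  obtain ⟨a, b, hab, -, -, hM⟩ := mono_count m χ
  set M := ∑ r : Fin m, ∑ s : Fin m, if r < s then (if χ r = χ s then 1 else 0) else 0 with hMdef
  unfold zar
  rcases Nat.even_or_odd' m with ⟨k, rfl | rfl⟩
  · have h1 : 2 * k / 2 = k := by omega
    rw [h1]
    cases k with
    | zero => simp
    | succ k =>
      have h2 : (2 * (k + 1) - 1) / 2 = k := by omega
      rw [h2]
      have hz : (a : ℤ) + b = 2 * (k + 1) := by exact_mod_cast hab
      have hm : (2 * (M : ℤ) + 2 * (k + 1)) = a ^ 2 + b ^ 2 := by exact_mod_cast hM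
      have : ((k + 1 : ℤ)) * k ≤ M := by nlinarith [sq_nonneg ((a : ℤ) - b)]
      exact_mod_cast this
  · have h1 : (2 * k + 1) / 2 = k := by omega
    have h2 : (2 * k + 1 - 1) / 2 = k := by omega
    rw [h1, h2]
    have hz : (a : ℤ) + b = 2 * k + 1 := by exact_mod_cast hab
    have hm : (2 * (M : ℤ) + (2 * k + 1)) = a ^ 2 + b ^ 2 := by exact_mod_cast hM
    have hodd : 1 ≤ ((a : ℤ) - b) ^ 2 := by
      have : (a : ℤ) - b ≠ 0 := by omega
      have h3 : 0 < ((a : ℤ) - b) ^ 2 := by positivity
      omega
    have : (k : ℤ) * k ≤ M := by nlinarith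
    exact_mod_cast this

/-- The sorted blue vertices. -/
noncomputable def TwoPageDrawing.sb {m n : ℕ} (D : TwoPageDrawing m n) : Equiv.Perm (Fin n) :=
  Tuple.sort D.posB

theorem TwoPageDrawing.sb_strictMono {m n : ℕ} (D : TwoPageDrawing m n) :
    StrictMono (fun i => D.posB (D.sb i)) := by
  have hm : Monotone (D.posB ∘ D.sb) := Tuple.monotone_sort D.posB
  refine hm.strictMono_of_injective ?_
  intro i j h
  exact D.sb.injective (D.posB_inj h)

/-- Number of blue vertices to the left of a red vertex. -/
noncomputable def TwoPageDrawing.loc {m n : ℕ} (D : TwoPageDrawing m n) (r : Fin m) : ℕ :=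
  ((univ : Finset (Fin n)).filter fun k => D.posB (D.sb k) < D.posR r).card

/-- The word of pages of a red vertex along the sorted blue vertices. -/
noncomputable def TwoPageDrawing.word {m n : ℕ} (D : TwoPageDrawing m n) (r : Fin m) : ℕ :=
  Nat.ofBits (fun i : Fin n => D.page r (D.sb i))

theorem TwoPageDrawing.word_lt {m n : ℕ} (D : TwoPageDrawing m n) (r : Fin m) : D.word r < 2 ^ n :=
  Nat.ofBits_lt_two_pow _

theorem TwoPageDrawing.word_bit {m n : ℕ} (D : TwoPageDrawing m n) (r : Fin m) (i : Fin n) :
    (D.word r).testBit i = D.page r (D.sb i) := by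
  unfold TwoPageDrawing.word
  rw [Nat.testBit_ofBits_lt _ _ i.isLt]

theorem TwoPageDrawing.loc_le {m n : ℕ} (D : TwoPageDrawing m n) (r : Fin m) : D.loc r ≤ n := by
  unfold TwoPageDrawing.loc
  simpa using Finset.card_le_univ ((univ : Finset (Fin n)).filter fun k => D.posB (D.sb k) < D.posR r)

theorem TwoPageDrawing.loc_mono {m n : ℕ} (D : TwoPageDrawing m n) {r s : Fin m}
    (h : D.posR r < D.posR s) : D.loc r ≤ D.loc s := by
  unfold TwoPageDrawing.loc
  refine Finset.card_le_card fun k hk => ?_
  simp only [mem_filter, mem_univ, true_and] at hk ⊢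
  omega

theorem alternate_transfer {pr ps fi fj i j l1 l2 : ℕ} (hl : l1 ≤ l2) (hrs : pr < ps) (hij : i ≠ j)
    (hfij : fi ≠ fj)
    (h1 : fi < pr ↔ i < l1) (h2 : fi < ps ↔ i < l2) (h3 : fj < pr ↔ j < l1) (h4 : fj < ps ↔ j < l2)
    (h5 : fi < fj ↔ i < j) (n1 : fi ≠ pr) (n2 : fi ≠ ps) (n3 : fj ≠ pr) (n4 : fj ≠ ps) :
    Alternate pr fi ps fj ↔ Alternate (3 * l1) (3 * i + 2) (3 * l2 + 1) (3 * j + 2) := by
  unfold Alternate Between
  rcases lt_or_gt_of_ne n1 with a1 | a1 <;> rcases lt_or_gt_of_ne n2 with a2 | a2 <;>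
  rcases lt_or_gt_of_ne n3 with a3 | a3 <;> rcases lt_or_gt_of_ne n4 with a4 | a4 <;>
  rcases lt_or_gt_of_ne hfij with a5 | a5 <;> omega

theorem TwoPageDrawing.pairC_eq_cntS {m n : ℕ} (D : TwoPageDrawing m n) {r s : Fin m}
    (h : D.posR r < D.posR s) :
    D.pairC r s = cntS n (D.loc r) (D.loc s) (D.word r) (D.word s) := by
  unfold TwoPageDrawing.pairC cntS
  rw [card_filter, Fintype.sum_prod_type]
  rw [← Equiv.sum_comp D.sb]
  refine Finset.sum_congr rfl fun i _ => ?_
  rw [← Equiv.sum_comp D.sb]
  refine Finset.sum_congr rfl fun j _ => ?_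
  have hs := D.sb_strictMono
  by_cases hij : i = j
  · subst hij
    simp
  · have hv : i.val ≠ j.val := fun h => hij (Fin.ext h)
    have hne : D.sb i ≠ D.sb j := fun h => hij (D.sb.injective h)
    have hfij : D.posB (D.sb i) ≠ D.posB (D.sb j) := fun h => hne (D.posB_inj h)
    have hlt : D.posB (D.sb i) < D.posB (D.sb j) ↔ i.val < j.val := hs.lt_iff_lt
    have key := alternate_transfer (i := i.val) (j := j.val) (l1 := D.loc r) (l2 := D.loc s)
      (D.loc_mono h) h hv hfij
      (lt_iff_lt_card _ hs _ i) (lt_iff_lt_card _ hs _ i) (lt_iff_lt_card _ hs _ j)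
      (lt_iff_lt_card _ hs _ j) hlt (D.posR_ne_posB r _).symm (D.posR_ne_posB s _).symm
      (D.posR_ne_posB r _).symm (D.posR_ne_posB s _).symm
    simp only [D.word_bit, key]
    simp only [ne_eq, hne, not_false_eq_true, true_and, hv]
    by_cases h1 : D.page r (D.sb i) = D.page s (D.sb j)
    · simp [h1]
    · simp [h1]

/-- The abstract table gives the lower bound for every number of red vertices. -/
theorem bound_of_table {n K : ℕ} (Z : ℕ → ℕ → ℕ)
    (hZ : ∀ l1 l2 a b, l1 ≤ l2 → l2 ≤ n → a < 2 ^ n → b < 2 ^ n →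
      agree K (Z l1 a) (Z l2 b) ≤ cntS n l1 l2 a b)
    {m : ℕ} (D : TwoPageDrawing m n) : K * zar m ≤ D.crossings := by
  set c : Fin m → ℕ := fun r => Z (D.loc r) (D.word r) with hc
  have hpair : ∀ r s : Fin m, r ≠ s → agree K (c r) (c s) ≤ D.pairC r s := by
    have hone : ∀ r s : Fin m, D.posR r < D.posR s → agree K (c r) (c s) ≤ D.pairC r s := by
      intro r s h
      rw [D.pairC_eq_cntS h]
      exact hZ _ _ _ _ (D.loc_mono h) (D.loc_le s) (D.word_lt r) (D.word_lt s)
    intro r s hrs
    rcases lt_or_gt_of_ne (fun h => hrs (D.posR_inj h) : D.posR r ≠ D.posR s) with h | h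
    · exact hone r s h
    · rw [D.pairC_symm hrs]
      have h2 := hone s r h
      have h3 : agree K (c r) (c s) = agree K (c s) (c r) := by
        unfold agree
        refine Finset.sum_congr rfl fun t _ => ?_
        simp only [eq_comm]
      rw [h3]
      exact h2
  rw [D.crossings_eq]
  calc K * zar m = ∑ _t : Fin K, zar m := by simp
    _ ≤ ∑ t : Fin K, ∑ r : Fin m, ∑ s : Fin m,
          if r < s then (if (c r).testBit t = (c s).testBit t then 1 else 0) else 0 :=
        Finset.sum_le_sum fun t _ => mono_pairs m fun r => (c r).testBit t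
    _ = ∑ r : Fin m, ∑ s : Fin m, if r < s then agree K (c r) (c s) else 0 := by
        rw [Finset.sum_comm]
        refine Finset.sum_congr rfl fun r _ => ?_
        rw [Finset.sum_comm]
        refine Finset.sum_congr rfl fun s _ => ?_
        by_cases h : r < s
        · simp [h, agree]
        · simp [h]
    _ ≤ _ := by
        refine Finset.sum_le_sum fun r _ => Finset.sum_le_sum fun s _ => ?_
        by_cases h : r < s
        · simp only [h, if_true]
          exact hpair r s (ne_of_lt h)
        · simp [h]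

end Vale.Agent.Lib.P040
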