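import Mathlib

/-!
Two-page drawings of complete bipartite graphs, as combinatorial data: the vertices lie at distinct
points of a line (the spine), and each edge is drawn in one of the two half-planes (pages). Two edges
without a common endpoint drawn in one page must cross as soon as their endpoints alternate along
the spine, and semicircles cross exactly then, so `crossings` below is the least number of crossings
of a drawing with the given positions and pages.
-/

namespace Vale.Agent.Lib.P040

/-- `c` lies strictly between the spine positions `a` and `b`. -/
abbrev Between (a b c : ℕ) : Prop := (a < c ∧ c < b) ∨ (b < c ∧ c < a)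

/-- The pairs `{a, b}` and `{c, d}` alternate along the spine: exactly one of `c`, `d` lies strictly
between `a` and `b`. -/
abbrev Alternate (a b c d : ℕ) : Prop :=
  (Between a b c ∧ ¬ Between a b d) ∨ (Between a b d ∧ ¬ Between a b c)

/-- A two-page drawing of `K_{m,n}`: distinct spine positions of the `m` red and `n` blue vertices,
and for each edge its page. -/
structure TwoPageDrawing (m n : ℕ) where
  /-- position of a red vertex -/
  posR : Fin m → ℕ
  /-- position of a blue vertex -/
  posB : Fin n → ℕ
  /-- all positions are distinct -/
  inj : Function.Injective (Sum.elim posR posB)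
  /-- the page of an edge -/
  page : Fin m → Fin n → Bool

/-- Number of crossings: unordered pairs of edges `(r, x)`, `(s, y)` without common endpoint, in the
same page, whose endpoints alternate along the spine (each such pair is listed once, by `r < s`). -/
def TwoPageDrawing.crossings {m n : ℕ} (D : TwoPageDrawing m n) : ℕ :=
  ((Finset.univ : Finset (Fin m × Fin m × Fin n × Fin n)).filter fun q =>
    q.1 < q.2.1 ∧ q.2.2.1 ≠ q.2.2.2 ∧ D.page q.1 q.2.2.1 = D.page q.2.1 q.2.2.2 ∧
      Alternate (D.posR q.1) (D.posB q.2.2.1) (D.posR q.2.1) (D.posB q.2.2.2)).card

/-- `d_r = ⌊r/2⌋ ⌊(r-1)/2⌋`; Zarankiewicz's conjecture says `cr(K_{m,n}) = d_m d_n`. -/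
def zar (r : ℕ) : ℕ := (r / 2) * ((r - 1) / 2)

end Vale.Agent.Lib.P040
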