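import Vale.Agent.Lib.P040.TwoPageCore

/-!
Deleting a blue vertex: the counting step from `n` to `n + 1` blue vertices.
-/

namespace Vale.Agent.Lib.P040

open Finset

/-- The drawing with one blue vertex deleted. -/
def TwoPageDrawing.del {m n : ℕ} (D : TwoPageDrawing m (n + 1)) (x : Fin (n + 1)) :
    TwoPageDrawing m n where
  posR := D.posR
  posB := fun y => D.posB (x.succAbove y)
  inj := by
    have h1 : Function.Injective (Sum.map (id : Fin m → Fin m) x.succAbove) :=
      Function.Injective.sumMap Function.injective_id (Fin.succAbove_right_injective)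
    intro u v h
    apply h1
    apply D.inj
    rcases u with u | u <;> rcases v with v | v <;> simpa using h
  page := fun r y => D.page r (x.succAbove y)

/-- The crossing quadruples of a drawing. -/
def TwoPageDrawing.crossSet {m n : ℕ} (D : TwoPageDrawing m n) :
    Finset (Fin m × Fin m × Fin n × Fin n) :=
  (Finset.univ : Finset (Fin m × Fin m × Fin n × Fin n)).filter fun q =>
    q.1 < q.2.1 ∧ q.2.2.1 ≠ q.2.2.2 ∧ D.page q.1 q.2.2.1 = D.page q.2.1 q.2.2.2 ∧
      Alternate (D.posR q.1) (D.posB q.2.2.1) (D.posR q.2.1) (D.posB q.2.2.2)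

theorem TwoPageDrawing.del_crossings {m n : ℕ} (D : TwoPageDrawing m (n + 1)) (x : Fin (n + 1)) :
    (D.del x).crossings = (D.crossSet.filter fun q => q.2.2.1 ≠ x ∧ q.2.2.2 ≠ x).card := by
  unfold TwoPageDrawing.crossings
  refine Finset.card_bij (fun q _ => (q.1, q.2.1, x.succAbove q.2.2.1, x.succAbove q.2.2.2))
    ?_ ?_ ?_
  · rintro ⟨r, s, u, v⟩ hq
    simp only [mem_filter, mem_univ, true_and, TwoPageDrawing.crossSet] at hq ⊢
    obtain ⟨h1, h2, h3, h4⟩ := hq
    exact ⟨⟨h1, fun h => h2 (Fin.succAbove_right_injective h), h3, h4⟩,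
      Fin.succAbove_ne x u, Fin.succAbove_ne x v⟩
  · rintro ⟨r, s, u, v⟩ _ ⟨r', s', u', v'⟩ _ h
    simp only [Prod.mk.injEq] at h ⊢
    exact ⟨h.1, h.2.1, Fin.succAbove_right_injective h.2.2.1,
      Fin.succAbove_right_injective h.2.2.2⟩
  · rintro ⟨r, s, u, v⟩ hq
    simp only [mem_filter, mem_univ, true_and, TwoPageDrawing.crossSet] at hq
    obtain ⟨⟨h1, h2, h3, h4⟩, hu, hv⟩ := hq
    obtain ⟨u', rfl⟩ := Fin.exists_succAbove_eq hu
    obtain ⟨v', rfl⟩ := Fin.exists_succAbove_eq hv
    refine ⟨(r, s, u', v'), ?_, rfl⟩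
    simp only [mem_filter, mem_univ, true_and]
    exact ⟨h1, fun h => h2 (congrArg _ h), h3, h4⟩

/-- Each crossing survives the deletion of every blue vertex but its two. -/
theorem TwoPageDrawing.sum_del {m n : ℕ} (D : TwoPageDrawing m (n + 1)) :
    ∑ x, (D.del x).crossings = (n - 1) * D.crossings := by
  simp_rw [TwoPageDrawing.del_crossings, card_filter]
  rw [Finset.sum_comm]
  have hcard : ∀ q ∈ D.crossSet,
      (∑ x : Fin (n + 1), if q.2.2.1 ≠ x ∧ q.2.2.2 ≠ x then 1 else 0) = n - 1 := by
    rintro ⟨r, s, u, v⟩ hq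
    simp only [TwoPageDrawing.crossSet, mem_filter, mem_univ, true_and] at hq
    have huv : u ≠ v := hq.2.1
    simp only [← card_filter]
    have : (univ.filter fun x : Fin (n + 1) => u ≠ x ∧ v ≠ x) = (univ \ {u, v}) := by
      ext x
      simp only [mem_filter, mem_univ, true_and, mem_sdiff, mem_insert, mem_singleton]
      constructor
      · rintro ⟨h1, h2⟩ (h | h)
        · exact h1 h.symm
        · exact h2 h.symm
      · intro h
        exact ⟨fun h' => h (Or.inl h'.symm), fun h' => h (Or.inr h'.symm)⟩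
    rw [this, Finset.card_sdiff_of_subset (Finset.subset_univ _), Finset.card_univ,
      Fintype.card_fin, Finset.card_pair huv]
    omega
  rw [Finset.sum_congr rfl hcard, Finset.sum_const, smul_eq_mul, mul_comm]
  rfl

/-- The counting step for the blue class. -/
theorem bound_succ {m n B : ℕ} (h : ∀ D : TwoPageDrawing m n, B ≤ D.crossings)
    (D : TwoPageDrawing m (n + 1)) : (n + 1) * B ≤ (n - 1) * D.crossings := by
  rw [← D.sum_del]
  calc (n + 1) * B = ∑ _x : Fin (n + 1), B := by simp
    _ ≤ _ := Finset.sum_le_sum fun x _ => h (D.del x)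

end Vale.Agent.Lib.P040
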