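import Vale.Agent.Lib.P040.TwoPageCore

/-!
Fast evaluation of the finite table condition of `bound_of_table`, with bit masks, so that the kernel
can check it by evaluation.
-/

namespace Vale.Agent.Lib.P040

open Finset

/-- Table lookup: entry number `x` of width `w` of the number `T`. -/
def look (T w x : ℕ) : ℕ := Nat.land (Nat.shiftRight T (w * x)) (2 ^ w - 1)

theorem look_lt (T w x : ℕ) : look T w x < 2 ^ w := by
  unfold look
  have : (2 : ℕ) ^ w - 1 < 2 ^ w := Nat.sub_lt (by positivity) (by norm_num)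
  exact Nat.and_lt_two_pow _ this

/-- The sum of the popcounts over the first `i` rows of the crossing matrix. -/
def fastSum (pop : ℕ → ℕ) (M : ℕ → ℕ) (a b c : ℕ) : ℕ → ℕ
  | 0 => 0
  | i + 1 => pop (Nat.land (M i) (cond (Nat.testBit a i) b c)) + fastSum pop M a b c i

theorem fastSum_eq (pop : ℕ → ℕ) (M : ℕ → ℕ) (a b c n : ℕ) :
    fastSum pop M a b c n = ∑ i : Fin n, pop (M i &&& (cond (Nat.testBit a i) b c)) := by
  induction n with
  | zero => simp [fastSum]
  | succ n ih =>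
    rw [Fin.sum_univ_castSucc, fastSum, ih]
    simp only [Fin.val_castSucc, Fin.val_last]
    rw [add_comm]
    rfl

theorem agree_add_pop {K : ℕ} {popK : ℕ → ℕ}
    (hpopK : ∀ x, x < 2 ^ K → popK x = ∑ t : Fin K, (x.testBit t).toNat) {x y : ℕ}
    (hx : x < 2 ^ K) (hy : y < 2 ^ K) : agree K x y + popK (x ^^^ y) = K := by
  rw [hpopK _ (Nat.xor_lt_two_pow hx hy)]
  unfold agree
  rw [← Finset.sum_add_distrib]
  have : ∀ t : Fin K, ((if x.testBit t = y.testBit t then 1 else 0)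
      + ((x ^^^ y).testBit t).toNat) = 1 := by
    intro t
    rw [Nat.testBit_xor]
    cases x.testBit t <;> cases y.testBit t <;> simp
  rw [Finset.sum_congr rfl fun t _ => this t]
  simp

theorem inner_pop {n : ℕ} {pop : ℕ → ℕ}
    (hpop : ∀ x, x < 2 ^ n → pop x = ∑ j : Fin n, (x.testBit j).toNat) {M b : ℕ} (s : Bool)
    (hb : b < 2 ^ n) :
    pop (M &&& (cond s b ((2 ^ n - 1) ^^^ b)))
      = ∑ j : Fin n, if M.testBit j = true ∧ s = b.testBit j then 1 else 0 := by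
  have hc : (2 ^ n - 1) ^^^ b < 2 ^ n :=
    Nat.xor_lt_two_pow (Nat.sub_lt (by positivity) (by norm_num)) hb
  have hlt : M &&& (cond s b ((2 ^ n - 1) ^^^ b)) < 2 ^ n := by
    cases s
    · exact Nat.and_lt_two_pow _ hc
    · exact Nat.and_lt_two_pow _ hb
  rw [hpop _ hlt]
  refine Finset.sum_congr rfl fun j _ => ?_
  rw [Nat.testBit_and]
  cases s
  · simp only [cond_false]
    rw [Nat.testBit_xor, Nat.testBit_two_pow_sub_one]
    simp only [j.isLt, decide_true]
    cases M.testBit j <;> cases b.testBit j <;> simp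
  · simp only [cond_true]
    cases M.testBit j <;> cases b.testBit j <;> simp

/-- From the fast finite check to the table condition of `bound_of_table`. -/
theorem table_of_fast {n K : ℕ} (pop popK : ℕ → ℕ) (M : ℕ → ℕ → ℕ → ℕ) (I J : ℕ → ℕ → ℕ)
    (Z : ℕ → ℕ → ℕ)
    (hpop : ∀ x, x < 2 ^ n → pop x = ∑ j : Fin n, (x.testBit j).toNat)
    (hpopK : ∀ x, x < 2 ^ K → popK x = ∑ t : Fin K, (x.testBit t).toNat)
    (hZlt : ∀ l a, Z l a < 2 ^ K)
    (hM : ∀ l1 l2, l1 ≤ l2 → l2 ≤ n → ∀ i j : Fin n,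
      (M l1 l2 i).testBit j = decide (i.val ≠ j.val ∧
        Alternate (3 * l1) (3 * i.val + 2) (3 * l2 + 1) (3 * j.val + 2)))
    (hI : ∀ l1 l2, l1 ≤ l2 → l2 ≤ n → ∀ i j : Fin n, (M l1 l2 i).testBit j = true →
      (I l1 l2).testBit i = true ∧ (J l1 l2).testBit j = true)
    (hZI : ∀ l1 l2, l1 ≤ l2 → l2 ≤ n → ∀ a, a < 2 ^ n →
      Z l1 a = Z l1 (a &&& I l1 l2) ∧ Z l2 a = Z l2 (a &&& J l1 l2))
    (hcheck : ∀ l1 l2, l1 ≤ l2 → l2 ≤ n → ∀ a b, a < 2 ^ n → b < 2 ^ n →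
      a &&& I l1 l2 = a → b &&& J l1 l2 = b →
      K ≤ popK (Z l1 a ^^^ Z l2 b) + fastSum pop (M l1 l2) a b ((2 ^ n - 1) ^^^ b) n) :
    ∀ l1 l2 a b, l1 ≤ l2 → l2 ≤ n → a < 2 ^ n → b < 2 ^ n →
      agree K (Z l1 a) (Z l2 b) ≤ cntS n l1 l2 a b := by
  intro l1 l2 a b h12 h2 ha hb
  set a' := a &&& I l1 l2 with ha'
  set b' := b &&& J l1 l2 with hb'
  have ha'lt : a' < 2 ^ n := by
    rw [ha', Nat.land_comm]; exact Nat.and_lt_two_pow _ ha
  have hb'lt : b' < 2 ^ n := by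
    rw [hb', Nat.land_comm]; exact Nat.and_lt_two_pow _ hb
  have hc := hcheck l1 l2 h12 h2 a' b' ha'lt hb'lt
    (by rw [ha', Nat.land_assoc, Nat.and_self]) (by rw [hb', Nat.land_assoc, Nat.and_self])
  have hZ1 : Z l1 a = Z l1 a' := (hZI l1 l2 h12 h2 a ha).1
  have hZ2 : Z l2 b = Z l2 b' := (hZI l1 l2 h12 h2 b hb).2
  rw [← hZ1, ← hZ2] at hc
  have hag := agree_add_pop hpopK (hZlt l1 a) (hZlt l2 b)
  have hfast : fastSum pop (M l1 l2) a' b' ((2 ^ n - 1) ^^^ b') n = cntS n l1 l2 a b := by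
    rw [fastSum_eq]
    unfold cntS
    refine Finset.sum_congr rfl fun i _ => ?_
    rw [inner_pop hpop _ hb'lt]
    refine Finset.sum_congr rfl fun j _ => ?_
    have hMij := hM l1 l2 h12 h2 i j
    by_cases hc1 : (i.val ≠ j.val ∧
        Alternate (3 * l1) (3 * i.val + 2) (3 * l2 + 1) (3 * j.val + 2))
    · have hb1 : (M l1 l2 i).testBit j = true := by rw [hMij]; exact decide_eq_true hc1
      obtain ⟨hi, hj⟩ := hI l1 l2 h12 h2 i j hb1
      have ea : a'.testBit i = a.testBit i := by rw [ha', Nat.testBit_and, hi, Bool.and_true]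
      have eb : b'.testBit j = b.testBit j := by rw [hb', Nat.testBit_and, hj, Bool.and_true]
      rw [hb1, ea, eb]
      by_cases h5 : a.testBit i = b.testBit j
      · rw [if_pos ⟨rfl, h5⟩, if_pos ⟨hc1.1, hc1.2, h5⟩]
      · rw [if_neg (fun h => h5 h.2), if_neg (fun h => h5 h.2.2)]
    · have hb1 : (M l1 l2 i).testBit j = false := by rw [hMij]; exact decide_eq_false hc1
      rw [hb1]
      have : ¬ (i.val ≠ j.val ∧ Alternate (3 * l1) (3 * i.val + 2) (3 * l2 + 1) (3 * j.val + 2) ∧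
          a.testBit i = b.testBit j) := fun h => hc1 ⟨h.1, h.2.1⟩
      rw [if_neg (by simp), if_neg this]
  rw [hfast] at hc
  omega

end Vale.Agent.Lib.P040
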