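import Vale.Agent.Lib.P040.TwoPageDel

/-!
The two-page lower bound for all `n`, reduced to one inequality `KeyIneq k` between two stars.

Certificate (helper12, decoded from helper54 tables): `n = 2k+1` blue points `x_0, ..., x_{2k}`, a star is a gap
`g` in `0..2k+1` and a word of signs `a`. Groups `l = 1..2k-1`, of `wd k l = min l (2k-l)` bits each, `k^2`
bits in all. The star fills group `l` with a threshold word, given by the integer `certC k g a l` in `[-w, w]`.
-/

namespace Vale.Agent.Lib.P040.Gen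

open Finset Vale.Agent.Lib.P040

/-- Generic form of `bound_of_table`: any finite set of cells in place of bits. -/
theorem bound_of_map {n : ℕ} {ι : Type} (cells : Finset ι) (Z : ℕ → ℕ → ι → Bool)
    (hZ : ∀ l1 l2 a b, l1 ≤ l2 → l2 ≤ n → a < 2 ^ n → b < 2 ^ n →
      (cells.filter fun t => Z l1 a t = Z l2 b t).card ≤ cntS n l1 l2 a b)
    {m : ℕ} (D : TwoPageDrawing m n) : cells.card * zar m ≤ D.crossings := by
  set c : Fin m → ι → Bool := fun r => Z (D.loc r) (D.word r) with hc
  have hpair : ∀ r s : Fin m, r ≠ s →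
      (cells.filter fun t => c r t = c s t).card ≤ D.pairC r s := by
    have hone : ∀ r s : Fin m, D.posR r < D.posR s →
        (cells.filter fun t => c r t = c s t).card ≤ D.pairC r s := by
      intro r s h
      rw [D.pairC_eq_cntS h]
      exact hZ _ _ _ _ (D.loc_mono h) (D.loc_le s) (D.word_lt r) (D.word_lt s)
    intro r s hrs
    rcases lt_or_gt_of_ne (fun h => hrs (D.posR_inj h) : D.posR r ≠ D.posR s) with h | h
    · exact hone r s h
    · rw [D.pairC_symm hrs]
      have h2 := hone s r h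
      have h3 : (cells.filter fun t => c r t = c s t) = (cells.filter fun t => c s t = c r t) := by
        ext t
        simp only [mem_filter, eq_comm]
      rw [h3]
      exact h2
  rw [D.crossings_eq]
  calc cells.card * zar m = ∑ _t ∈ cells, zar m := by simp
    _ ≤ ∑ t ∈ cells, ∑ r : Fin m, ∑ s : Fin m,
          if r < s then (if c r t = c s t then 1 else 0) else 0 :=
        Finset.sum_le_sum fun t _ => mono_pairs m fun r => c r t
    _ = ∑ r : Fin m, ∑ s : Fin m, if r < s then (cells.filter fun t => c r t = c s t).card else 0 := by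
        rw [Finset.sum_comm]
        refine Finset.sum_congr rfl fun r _ => ?_
        rw [Finset.sum_comm]
        refine Finset.sum_congr rfl fun s _ => ?_
        by_cases h : r < s
        · simp only [h, if_true]
          rw [card_filter]
        · simp [h]
    _ ≤ _ := by
        refine Finset.sum_le_sum fun r _ => Finset.sum_le_sum fun s _ => ?_
        by_cases h : r < s
        · simp only [h, if_true]
          exact hpair r s (ne_of_lt h)
        · simp [h]

/-- Size of group `l`. -/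
def wd (k l : ℕ) : ℤ := min (l : ℤ) (2 * (k : ℤ) - l)

/-- Clamp to `[-w, w]`. -/
def clampZ (w x : ℤ) : ℤ := max (-w) (min w x)

/-- Sum of the signs right of `l`. -/
def sumR (k : ℕ) (a : ℕ → ℤ) (l : ℕ) : ℤ := ∑ i ∈ Ioc l (2 * k), a i

/-- Sum of the signs left of `l`. -/
def sumL (a : ℕ → ℤ) (l : ℕ) : ℤ := ∑ i ∈ range l, a i

/-- The certificate value of the star `(g, a)` in group `l`. -/
def certC (k g : ℕ) (a : ℕ → ℤ) (l : ℕ) : ℤ :=
  if g ≤ l then
    a l * max (a l * clampZ (wd k l) (sumR k a l)) (clampZ (wd k l) ((l : ℤ) - 2 * g))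
  else
    a l * max (a l * clampZ (wd k l) (sumL a l)) (clampZ (wd k l) (2 * (g : ℤ) - 2 - 2 * k - l))

/-- Twice the agreement of two stars in group `l`. -/
def grpAgree (k g h : ℕ) (a b : ℕ → ℤ) (l : ℕ) : ℤ :=
  if (g ≤ l ∧ h ≤ l) ∨ (l < g ∧ l < h) then
    2 * wd k l - |certC k g a l - certC k h b l|
  else
    |certC k g a l + certC k h b l|

/-- The pairs `(i, j)` whose edges (star at gap `g` to `x_i`, star at gap `h` to `x_j`) alternate. -/
def Rel (g h i j : ℕ) : Prop :=
  (i < j ∧ j < g) ∨ (g ≤ j ∧ j < i ∧ i < h) ∨ (h ≤ i ∧ i < j) ∨ (h ≤ i ∧ j < g)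

instance (g h i j : ℕ) : Decidable (Rel g h i j) := by unfold Rel; infer_instance

/-- Twice the crossings of two stars, in signs. -/
def cr2 (k g h : ℕ) (a b : ℕ → ℤ) : ℤ :=
  ∑ i ∈ range (2 * k + 1), ∑ j ∈ range (2 * k + 1), if Rel g h i j then 1 + a i * b j else 0

/-- The one inequality the whole bound needs: twice the agreement is at most twice the crossings. -/
def KeyIneq (k : ℕ) : Prop :=
  ∀ (g h : ℕ) (a b : ℕ → ℤ), g ≤ h → h ≤ 2 * k + 1 →
    (∀ i, a i = 1 ∨ a i = -1) → (∀ i, b i = 1 ∨ b i = -1) →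
    ∑ l ∈ Icc 1 (2 * k - 1), grpAgree k g h a b l ≤ cr2 k g h a b

/-- Sign of a page in a word. -/
def pg (w i : ℕ) : ℤ := if w.testBit i then 1 else -1

theorem pg_sign (w i : ℕ) : pg w i = 1 ∨ pg w i = -1 := by
  unfold pg
  by_cases h : w.testBit i <;> simp [h]

/-- The crossing count in signs. -/
theorem two_cntS (k g h a b : ℕ) (hgh : g ≤ h) :
    2 * (cntS (2 * k + 1) g h a b : ℤ) = cr2 k g h (pg a) (pg b) := by
  unfold cntS cr2
  push_cast
  rw [Fin.sum_univ_eq_sum_range
    (fun i => ∑ j : Fin (2 * k + 1), if i ≠ j.val ∧ Alternate (3 * g) (3 * i + 2) (3 * h + 1)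
      (3 * j.val + 2) ∧ a.testBit i = b.testBit j.val then (1 : ℤ) else 0) (2 * k + 1)]
  rw [Finset.mul_sum]
  refine Finset.sum_congr rfl fun i _ => ?_
  rw [Fin.sum_univ_eq_sum_range
    (fun j => if i ≠ j ∧ Alternate (3 * g) (3 * i + 2) (3 * h + 1)
      (3 * j + 2) ∧ a.testBit i = b.testBit j then (1 : ℤ) else 0) (2 * k + 1)]
  rw [Finset.mul_sum]
  refine Finset.sum_congr rfl fun j _ => ?_
  have hR : (i ≠ j ∧ Alternate (3 * g) (3 * i + 2) (3 * h + 1) (3 * j + 2)) ↔ Rel g h i j := by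
    unfold Rel Alternate Between
    omega
  by_cases hrel : Rel g h i j
  · have h1 := hR.2 hrel
    rw [if_pos hrel]
    unfold pg
    by_cases ha : a.testBit i <;> by_cases hb : b.testBit j <;> simp [ha, hb, h1.1, h1.2]
  · rw [if_neg hrel]
    have h1 : ¬ (i ≠ j ∧ Alternate (3 * g) (3 * i + 2) (3 * h + 1) (3 * j + 2) ∧
        a.testBit i = b.testBit j) := by
      rintro ⟨h2, h3, -⟩
      exact hrel (hR.1 ⟨h2, h3⟩)
    rw [if_neg h1]
    simp

theorem wd_nonneg {k l : ℕ} (hl : l ≤ 2 * k) : 0 ≤ wd k l := by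
  unfold wd
  omega

/-- Parity of a sum of signs. -/
theorem sum_sign_parity (s : Finset ℕ) (a : ℕ → ℤ) (ha : ∀ i, a i = 1 ∨ a i = -1) :
    ∃ t : ℤ, ∑ i ∈ s, a i = 2 * t + (s.card : ℤ) := by
  induction s using Finset.induction_on with
  | empty => exact ⟨0, by simp⟩
  | insert x s hx ih =>
    obtain ⟨t, ht⟩ := ih
    rw [Finset.sum_insert hx, Finset.card_insert_of_notMem hx, ht]
    rcases ha x with h | h
    · exact ⟨t, by rw [h]; push_cast; ring⟩
    · exact ⟨t - 1, by rw [h]; push_cast; ring⟩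

/-- A value of the shape the thresholds want: the same parity as `w`, at most `w` in size. -/
def Shape (w x : ℤ) : Prop := ∃ c : ℤ, x = 2 * c - w ∧ 0 ≤ c ∧ c ≤ w

theorem shape_clamp {w x : ℤ} (hw : 0 ≤ w) (hx : ∃ t : ℤ, x = 2 * t + w) : Shape w (clampZ w x) := by
  obtain ⟨t, rfl⟩ := hx
  unfold Shape clampZ
  by_cases h1 : 2 * t + w ≤ -w
  · refine ⟨0, ?_, le_refl _, hw⟩
    rw [min_eq_right (by omega), max_eq_left h1]
    ring
  · by_cases h2 : w ≤ 2 * t + w
    · refine ⟨w, ?_, hw, le_refl _⟩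
      rw [min_eq_left h2, max_eq_right (by omega)]
      ring
    · refine ⟨t + w, ?_, by omega, by omega⟩
      rw [min_eq_right (by omega), max_eq_right (by omega)]
      ring

theorem shape_neg {w x : ℤ} (h : Shape w x) : Shape w (-x) := by
  obtain ⟨c, rfl, h0, h1⟩ := h
  exact ⟨w - c, by ring, by omega, by omega⟩

theorem shape_max {w x y : ℤ} (hx : Shape w x) (hy : Shape w y) : Shape w (max x y) := by
  rcases max_choice x y with h | h <;> rw [h] <;> assumption

theorem shape_sign_mul {w x s : ℤ} (hs : s = 1 ∨ s = -1) (h : Shape w x) : Shape w (s * x) := by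
  rcases hs with rfl | rfl
  · simpa using h
  · simpa using shape_neg h

theorem wd_parity (k l : ℕ) : ∃ t : ℤ, (l : ℤ) = 2 * t + wd k l := by
  unfold wd
  by_cases h : (l : ℤ) ≤ 2 * (k : ℤ) - l
  · exact ⟨0, by rw [min_eq_left h]; ring⟩
  · exact ⟨(l : ℤ) - k, by rw [min_eq_right (by omega)]; ring⟩

theorem certC_shape {k g : ℕ} {a : ℕ → ℤ} {l : ℕ} (hl : l ≤ 2 * k) (ha : ∀ i, a i = 1 ∨ a i = -1) :
    Shape (wd k l) (certC k g a l) := by
  have hw := wd_nonneg (k := k) hl
  obtain ⟨t0, ht0⟩ := wd_parity k l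
  unfold certC
  split_ifs with hg
  · refine shape_sign_mul (ha l) (shape_max (shape_sign_mul (ha l) (shape_clamp hw ?_))
      (shape_clamp hw ?_))
    · obtain ⟨t, ht⟩ := sum_sign_parity (Ioc l (2 * k)) a ha
      unfold sumR
      rw [ht, Nat.card_Ioc]
      refine ⟨t + (k : ℤ) - l + t0, ?_⟩
      have : ((2 * k - l : ℕ) : ℤ) = 2 * (k : ℤ) - l := by omega
      rw [this]
      linarith
    · exact ⟨t0 - g, by linarith⟩
  · refine shape_sign_mul (ha l) (shape_max (shape_sign_mul (ha l) (shape_clamp hw ?_))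
      (shape_clamp hw ?_))
    · obtain ⟨t, ht⟩ := sum_sign_parity (range l) a ha
      unfold sumL
      rw [ht, Finset.card_range]
      exact ⟨t + t0, by linarith⟩
    · exact ⟨(g : ℤ) - 1 - k - l + t0, by linarith⟩

/-- The threshold count, same orientation. -/
theorem count_same (w : ℕ) (c d : ℕ) (hc : c ≤ w) (hd : d ≤ w) :
    2 * (((Icc 1 w).filter fun j => (j ≤ c ↔ j ≤ d)).card : ℤ) = 2 * (w : ℤ) - 2 * |(c : ℤ) - d| := by
  rcases le_total c d with h | h
  · have h1 : ((Icc 1 w).filter fun j => (j ≤ c ↔ j ≤ d)) = Icc 1 c ∪ Ioc d w := by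
      ext j
      simp only [mem_filter, mem_Icc, mem_union, mem_Ioc]
      omega
    have h2 : Disjoint (Icc 1 c) (Ioc d w) := by
      rw [Finset.disjoint_left]
      intro j h1 h2
      simp only [mem_Icc, mem_Ioc] at h1 h2
      omega
    have h3 : ((Icc 1 w).filter fun j => (j ≤ c ↔ j ≤ d)).card = c + (w - d) := by
      rw [h1, card_union_of_disjoint h2, Nat.card_Icc, Nat.card_Ioc]
      omega
    rw [h3, abs_of_nonpos (by omega)]
    omega
  · have h1 : ((Icc 1 w).filter fun j => (j ≤ c ↔ j ≤ d)) = Icc 1 d ∪ Ioc c w := by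
      ext j
      simp only [mem_filter, mem_Icc, mem_union, mem_Ioc]
      omega
    have h2 : Disjoint (Icc 1 d) (Ioc c w) := by
      rw [Finset.disjoint_left]
      intro j h1 h2
      simp only [mem_Icc, mem_Ioc] at h1 h2
      omega
    have h3 : ((Icc 1 w).filter fun j => (j ≤ c ↔ j ≤ d)).card = d + (w - c) := by
      rw [h1, card_union_of_disjoint h2, Nat.card_Icc, Nat.card_Ioc]
      omega
    rw [h3, abs_of_nonneg (by omega)]
    omega

/-- The threshold count, opposite orientation. -/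
theorem count_opp (w : ℕ) (c d : ℕ) (hc : c ≤ w) (hd : d ≤ w) :
    2 * (((Icc 1 w).filter fun j => (j ≤ c ↔ w + 1 ≤ j + d)).card : ℤ)
      = |2 * (c : ℤ) + 2 * (d : ℤ) - 2 * (w : ℤ)| := by
  rcases le_total w (c + d) with h | h
  · have : ((Icc 1 w).filter fun j => (j ≤ c ↔ w + 1 ≤ j + d)) = Icc (w + 1 - d) c := by
      ext j
      simp only [mem_filter, mem_Icc]
      omega
    rw [this, Nat.card_Icc, abs_of_nonneg (by omega)]
    omega
  · have : ((Icc 1 w).filter fun j => (j ≤ c ↔ w + 1 ≤ j + d)) = Ioc c (w - d) := by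
      ext j
      simp only [mem_filter, mem_Icc, mem_Ioc]
      omega
    rw [this, Nat.card_Ioc, abs_of_nonpos (by omega)]
    omega

/-- The cells: group `l`, position `j`. -/
def cells (k : ℕ) : Finset (Σ _ : ℕ, ℕ) :=
  (Icc 1 (2 * k - 1)).sigma fun l => Icc 1 (wd k l).toNat

theorem sum_min_aux (k : ℕ) : ∑ l ∈ range (2 * k + 1), min l (2 * k - l) = k ^ 2 := by
  induction k with
  | zero => simp
  | succ k ih =>
    have h1 : 2 * (k + 1) + 1 = (2 * k + 1) + 1 + 1 := by ring
    rw [h1, Finset.sum_range_succ, Finset.sum_range_succ']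
    have h2 : ∀ l ∈ range (2 * k + 1), min (l + 1) ((2 * k + 1) + 1 - (l + 1))
        = min l (2 * k - l) + 1 := by
      intro l hl
      rw [mem_range] at hl
      omega
    have h3 : (2 * (k + 1) - (2 * k + 1 + 1) : ℕ) = 0 := by omega
    have h4 : ∑ l ∈ range (2 * k + 1), min (l + 1) (2 * (k + 1) - (l + 1))
        = ∑ l ∈ range (2 * k + 1), (min l (2 * k - l) + 1) := by
      refine Finset.sum_congr rfl fun l hl => ?_
      rw [mem_range] at hl
      omega
    rw [h3, h4, Finset.sum_add_distrib, ih]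
    simp
    ring

theorem card_cells (k : ℕ) : (cells k).card = k ^ 2 := by
  unfold cells
  rw [Finset.card_sigma, ← sum_min_aux k]
  rcases Nat.eq_zero_or_pos k with rfl | hk
  · simp
  · have h1 : range (2 * k + 1) = insert 0 (insert (2 * k) (Icc 1 (2 * k - 1))) := by
      ext l
      simp only [mem_range, mem_insert, mem_Icc]
      omega
    rw [h1, Finset.sum_insert, Finset.sum_insert]
    · simp only [Nat.zero_le, min_eq_left, zero_add, Nat.sub_self, min_eq_right, Nat.card_Icc]
      refine Finset.sum_congr rfl fun l hl => ?_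
      simp only [mem_Icc] at hl
      unfold wd
      omega
    · simp only [mem_Icc]
      omega
    · simp only [mem_insert, mem_Icc]
      omega

/-- The bit of the star `(g, a)` in the cell `(l, j)`. -/
def bitZ (k g w : ℕ) (t : Σ _ : ℕ, ℕ) : Bool :=
  if g ≤ t.1 then
    decide (2 * (t.2 : ℤ) - wd k t.1 ≤ certC k g (pg w) t.1)
  else
    decide (wd k t.1 + 2 - 2 * (t.2 : ℤ) ≤ certC k g (pg w) t.1)

/-- Agreement of two stars in one group. -/
theorem group_count (k g h a b l : ℕ) (hl : l ≤ 2 * k) :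
    2 * (((Icc 1 (wd k l).toNat).filter fun j =>
        bitZ k g a ⟨l, j⟩ = bitZ k h b ⟨l, j⟩).card : ℤ)
      = grpAgree k g h (pg a) (pg b) l := by
  have hw := wd_nonneg (k := k) hl
  obtain ⟨w, hw'⟩ : ∃ w : ℕ, wd k l = (w : ℤ) := ⟨(wd k l).toNat, by omega⟩
  have hT : (wd k l).toNat = w := by omega
  obtain ⟨c, hc, hc0, hc1⟩ := certC_shape (k := k) (g := g) hl (pg_sign a)
  obtain ⟨d, hd, hd0, hd1⟩ := certC_shape (k := k) (g := h) hl (pg_sign b)
  obtain ⟨c', rfl⟩ : ∃ c' : ℕ, c = (c' : ℤ) := ⟨c.toNat, by omega⟩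
  obtain ⟨d', rfl⟩ : ∃ d' : ℕ, d = (d' : ℤ) := ⟨d.toNat, by omega⟩
  rw [hw'] at hc hd hc1 hd1
  have hc2 : c' ≤ w := by omega
  have hd2 : d' ≤ w := by omega
  rw [hT]
  have habs1 : |2 * (c' : ℤ) - w - (2 * d' - w)| = 2 * |(c' : ℤ) - d'| := by
    rw [show 2 * (c' : ℤ) - w - (2 * d' - w) = 2 * ((c' : ℤ) - d') by ring, abs_mul]
    simp
  have habs2 : 2 * (c' : ℤ) - w + (2 * d' - w) = 2 * c' + 2 * d' - 2 * w := by ring
  unfold grpAgree bitZ
  simp only [hw', hc, hd, habs1, habs2]
  by_cases h1 : g ≤ l <;> by_cases h2 : h ≤ l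
  · rw [if_pos (Or.inl ⟨h1, h2⟩)]
    simp only [h1, h2, if_true]
    have h3 : ((Icc 1 w : Finset ℕ).filter fun j : ℕ => decide (2 * (j : ℤ) - w ≤ 2 * c' - w)
        = decide (2 * (j : ℤ) - w ≤ 2 * d' - w))
        = ((Icc 1 w : Finset ℕ).filter fun j : ℕ => (j ≤ c' ↔ j ≤ d')) := by
      refine Finset.filter_congr fun j _ => ?_
      rw [decide_eq_decide]
      omega
    rw [h3, count_same w c' d' hc2 hd2]
  · rw [if_neg (by omega)]
    simp only [h1, h2, if_true, if_false]
    have h3 : ((Icc 1 w : Finset ℕ).filter fun j : ℕ => decide (2 * (j : ℤ) - w ≤ 2 * c' - w)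
        = decide ((w : ℤ) + 2 - 2 * (j : ℤ) ≤ 2 * d' - w))
        = ((Icc 1 w : Finset ℕ).filter fun j : ℕ => (j ≤ c' ↔ w + 1 ≤ j + d')) := by
      refine Finset.filter_congr fun j _ => ?_
      rw [decide_eq_decide]
      omega
    rw [h3, count_opp w c' d' hc2 hd2]
  · rw [if_neg (by omega)]
    simp only [h1, h2, if_true, if_false]
    have h3 : ((Icc 1 w : Finset ℕ).filter fun j : ℕ => decide ((w : ℤ) + 2 - 2 * (j : ℤ) ≤ 2 * c' - w)
        = decide (2 * (j : ℤ) - w ≤ 2 * d' - w))
        = ((Icc 1 w : Finset ℕ).filter fun j : ℕ => (j ≤ d' ↔ w + 1 ≤ j + c')) := by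
      refine Finset.filter_congr fun j _ => ?_
      rw [eq_comm, decide_eq_decide]
      omega
    rw [h3, count_opp w d' c' hd2 hc2]
    rw [show 2 * (d' : ℤ) + 2 * c' - 2 * w = 2 * c' + 2 * d' - 2 * w by ring]
  · rw [if_pos (Or.inr ⟨by omega, by omega⟩)]
    simp only [h1, h2, if_false]
    have h3 : ((Icc 1 w : Finset ℕ).filter fun j : ℕ => decide ((w : ℤ) + 2 - 2 * (j : ℤ) ≤ 2 * c' - w)
        = decide ((w : ℤ) + 2 - 2 * (j : ℤ) ≤ 2 * d' - w))
        = ((Icc 1 w : Finset ℕ).filter fun j : ℕ => (j + c' ≥ w + 1 ↔ j + d' ≥ w + 1)) := by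
      refine Finset.filter_congr fun j _ => ?_
      rw [decide_eq_decide]
      omega
    rw [h3]
    have h4 : ((Icc 1 w).filter fun j => (j + c' ≥ w + 1 ↔ j + d' ≥ w + 1)).card
        = ((Icc 1 w).filter fun j => (j ≤ w - c' ↔ j ≤ w - d')).card := by
      congr 1
      refine Finset.filter_congr fun j hj => ?_
      simp only [mem_Icc] at hj
      omega
    rw [h4, count_same w (w - c') (w - d') (by omega) (by omega)]
    have h5 : (((w - c' : ℕ) : ℤ) - ((w - d' : ℕ) : ℤ)) = -((c' : ℤ) - d') := by omega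
    rw [h5, abs_neg]

/-- Total agreement of two stars. -/
theorem total_count (k g h a b : ℕ) :
    2 * (((cells k).filter fun t => bitZ k g a t = bitZ k h b t).card : ℤ)
      = ∑ l ∈ Icc 1 (2 * k - 1), grpAgree k g h (pg a) (pg b) l := by
  unfold cells
  rw [card_filter]
  rw [Finset.sum_sigma]
  push_cast
  rw [Finset.mul_sum]
  refine Finset.sum_congr rfl fun l hl => ?_
  simp only [mem_Icc] at hl
  rw [← group_count k g h a b l (by omega)]
  rw [card_filter]
  push_cast
  rfl

/-- The bound for odd `n`, from the key inequality. -/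
theorem bound_odd {k : ℕ} (hk : KeyIneq k) {m : ℕ} (D : TwoPageDrawing m (2 * k + 1)) :
    k ^ 2 * zar m ≤ D.crossings := by
  have := bound_of_map (n := 2 * k + 1) (cells k) (fun g w => bitZ k g w) ?_ D
  · rwa [card_cells] at this
  · intro l1 l2 a b hl hl2 _ _
    have h1 := hk l1 l2 (pg a) (pg b) hl hl2 (pg_sign a) (pg_sign b)
    rw [← total_count, ← two_cntS k l1 l2 a b hl] at h1
    omega

/-- Zarankiewicz's bound for two-page drawings, for all `m, n`, from the key inequality. -/
theorem main_of_key (hk : ∀ k, KeyIneq k) (m n : ℕ) (D : TwoPageDrawing m n) :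
    zar m * zar n ≤ D.crossings := by
  rcases Nat.even_or_odd' n with ⟨k, rfl | rfl⟩
  · cases k with
    | zero =>
      have h : zar (2 * 0) = 0 := by decide
      rw [h]; simp
    | succ k =>
      cases k with
      | zero =>
        have h : zar (2 * (0 + 1)) = 0 := by decide
        rw [h]; simp
      | succ k =>
        have h := bound_succ (n := 2 * (k + 1) + 1) (B := (k + 1) ^ 2 * zar m)
          (fun D' => bound_odd (hk (k + 1)) D') D
        have hz : zar (2 * (k + 1 + 1)) = (k + 2) * (k + 1) := by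
          unfold zar
          have h1 : 2 * (k + 1 + 1) / 2 = k + 2 := by omega
          have h2 : (2 * (k + 1 + 1) - 1) / 2 = k + 1 := by omega
          rw [h1, h2]
        rw [hz]
        have h3 : (2 * (k + 1) + 1 + 1) * ((k + 1) ^ 2 * zar m)
            = (2 * (k + 1)) * ((zar m * ((k + 2) * (k + 1)))) := by ring
        have h4 : (2 * (k + 1) + 1 - 1) = 2 * (k + 1) := by omega
        rw [h3, h4] at h
        exact Nat.le_of_mul_le_mul_left h (by omega)
  · have h := bound_odd (hk k) D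
    have hz : zar (2 * k + 1) = k ^ 2 := by
      unfold zar
      have h1 : (2 * k + 1) / 2 = k := by omega
      have h2 : (2 * k + 1 - 1) / 2 = k := by omega
      rw [h1, h2]
      ring
    rw [hz, mul_comm]
    exact h

end Vale.Agent.Lib.P040.Gen
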