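import Vale.Agent.Lib.P040.TwoPageFast

/-!
A faster check of the finite table condition: for a fixed left star, all right stars are treated at
once, with vectors of counters packed as the base 256 digits of one large number.
-/

namespace Vale.Agent.Lib.P040

open Finset

/-- A vector of counters as one number, in base 256. -/
def pack (v : ℕ → ℕ) (N : ℕ) : ℕ := ∑ b ∈ range N, v b * 256 ^ b

theorem pack_add (u v : ℕ → ℕ) (N : ℕ) :
    pack (fun b => u b + v b) N = pack u N + pack v N := by
  simp [pack, add_mul, sum_add_distrib]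

theorem pack_smul (c : ℕ) (u : ℕ → ℕ) (N : ℕ) :
    pack (fun b => c * u b) N = c * pack u N := by
  simp [pack, mul_sum, mul_assoc]

theorem pack_sum {ι : Type*} (s : Finset ι) (f : ι → ℕ → ℕ) (N : ℕ) :
    pack (fun b => ∑ i ∈ s, f i b) N = ∑ i ∈ s, pack (f i) N := by
  simp only [pack, sum_mul]
  rw [sum_comm]

theorem pack_congr {u v : ℕ → ℕ} {N : ℕ} (h : ∀ b, b < N → u b = v b) : pack u N = pack v N :=
  Finset.sum_congr rfl fun b hb => by rw [h b (mem_range.1 hb)]

theorem pack_succ (v : ℕ → ℕ) (N : ℕ) :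
    pack v (N + 1) = v 0 + 256 * pack (fun b => v (b + 1)) N := by
  unfold pack
  rw [sum_range_succ', mul_sum, add_comm]
  simp only [pow_zero, mul_one]
  congr 1
  refine Finset.sum_congr rfl fun b _ => ?_
  rw [pow_succ]
  ring

theorem pack_digit : ∀ (b N : ℕ) (v : ℕ → ℕ), (∀ c, c < N → v c < 256) → b < N →
    pack v N / 256 ^ b % 256 = v b := by
  intro b
  induction b with
  | zero =>
    intro N v hv hb
    obtain ⟨N', rfl⟩ : ∃ N', N = N' + 1 := ⟨N - 1, by omega⟩
    rw [pack_succ]
    have := hv 0 (by omega)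
    simp only [pow_zero, Nat.div_one]
    omega
  | succ b ih =>
    intro N v hv hb
    obtain ⟨N', rfl⟩ : ∃ N', N = N' + 1 := ⟨N - 1, by omega⟩
    rw [pack_succ, pow_succ', ← Nat.div_div_eq_div_mul]
    have h0 := hv 0 (by omega)
    have h1 : (v 0 + 256 * pack (fun b => v (b + 1)) N') / 256 = pack (fun b => v (b + 1)) N' := by
      omega
    rw [h1]
    exact ih N' (fun b => v (b + 1)) (fun c hc => hv (c + 1) (by omega)) (by omega)

theorem pack_topbit (N : ℕ) (e : ℕ → ℕ) (he : ∀ c, c < N → e c < 256) {b : ℕ} (hb : b < N) :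
    (pack e N).testBit (8 * b + 7) = decide (128 ≤ e b) := by
  have hd := pack_digit b N e he hb
  have h2 : (2 : ℕ) ^ (8 * b + 7) = 256 ^ b * 128 := by
    rw [pow_add, pow_mul]; norm_num
  rw [Nat.testBit_eq_decide_div_mod_eq, h2, ← Nat.div_div_eq_div_mul]
  set x := pack e N / 256 ^ b with hx
  have he' := he b hb
  by_cases h128 : 128 ≤ e b
  · rw [decide_eq_true h128]
    simp only [decide_eq_true_eq]
    omega
  · rw [decide_eq_false h128]
    simp only [decide_eq_false_iff_not]
    omega

/-- Sum of the first `n` values, by recursion. -/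
def sumF (f : ℕ → ℕ) : ℕ → ℕ
  | 0 => 0
  | i + 1 => f i + sumF f i

theorem sumF_eq (f : ℕ → ℕ) (n : ℕ) : sumF f n = ∑ i ∈ range n, f i := by
  induction n with
  | zero => simp [sumF]
  | succ n ih => rw [sumF, ih, sum_range_succ, add_comm]

/-- The packed vector, over all right words `b`, of the crossing counts with the left word `a`. -/
def pkCnt (pop : ℕ → ℕ) (n full : ℕ) (Col Bit NBit : ℕ → ℕ) (a : ℕ) : ℕ :=
  sumF (fun j => pop (Nat.land (Col j) a) * Bit j + pop (Nat.land (Col j) (Nat.xor full a)) * NBit j) n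

/-- The packed vector, over all right words, of the numbers of agreeing coordinates. -/
def pkAg (K one : ℕ) (zA ZB : ℕ → ℕ) : ℕ :=
  sumF (fun t => cond (Nat.beq (zA t) 1) (ZB t) (one - ZB t)) K

/-- The digit of a packed column, reduced to one bit. -/
def zdig (col a : ℕ) : ℕ := Nat.land (Nat.shiftRight col (8 * a)) 1

theorem zdig_le (col a : ℕ) : zdig col a ≤ 1 := by
  unfold zdig
  exact Nat.and_le_right

/-- Coordinate functions give the lower bound for every number of red vertices. -/
theorem bound_of_coords {n K : ℕ} (c : ℕ → ℕ → ℕ → Bool)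
    (hZ : ∀ l1 l2 a b, l1 ≤ l2 → l2 ≤ n → a < 2 ^ n → b < 2 ^ n →
      (∑ t : Fin K, if c t l1 a = c t l2 b then 1 else 0) ≤ cntS n l1 l2 a b)
    {m : ℕ} (D : TwoPageDrawing m n) : K * zar m ≤ D.crossings := by
  have hpair : ∀ r s : Fin m, r ≠ s →
      (∑ t : Fin K, if c t (D.loc r) (D.word r) = c t (D.loc s) (D.word s) then 1 else 0)
        ≤ D.pairC r s := by
    have hone : ∀ r s : Fin m, D.posR r < D.posR s →
        (∑ t : Fin K, if c t (D.loc r) (D.word r) = c t (D.loc s) (D.word s) then 1 else 0)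
          ≤ D.pairC r s := by
      intro r s h
      rw [D.pairC_eq_cntS h]
      exact hZ _ _ _ _ (D.loc_mono h) (D.loc_le s) (D.word_lt r) (D.word_lt s)
    intro r s hrs
    rcases lt_or_gt_of_ne (fun h => hrs (D.posR_inj h) : D.posR r ≠ D.posR s) with h | h
    · exact hone r s h
    · rw [D.pairC_symm hrs]
      have h2 := hone s r h
      have h3 : (∑ t : Fin K, if c t (D.loc r) (D.word r) = c t (D.loc s) (D.word s) then 1 else 0)
          = ∑ t : Fin K, if c t (D.loc s) (D.word s) = c t (D.loc r) (D.word r) then 1 else 0 := by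
        refine Finset.sum_congr rfl fun t _ => ?_
        simp only [eq_comm]
      rw [h3]
      exact h2
  rw [D.crossings_eq]
  calc K * zar m = ∑ _t : Fin K, zar m := by simp
    _ ≤ ∑ t : Fin K, ∑ r : Fin m, ∑ s : Fin m,
          if r < s then
            (if c t (D.loc r) (D.word r) = c t (D.loc s) (D.word s) then 1 else 0) else 0 :=
        Finset.sum_le_sum fun t _ => mono_pairs m fun r => c t (D.loc r) (D.word r)
    _ = ∑ r : Fin m, ∑ s : Fin m, if r < s then
          (∑ t : Fin K, if c t (D.loc r) (D.word r) = c t (D.loc s) (D.word s) then 1 else 0)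
            else 0 := by
        rw [Finset.sum_comm]
        refine Finset.sum_congr rfl fun r _ => ?_
        rw [Finset.sum_comm]
        refine Finset.sum_congr rfl fun s _ => ?_
        by_cases h : r < s
        · simp [h]
        · simp [h]
    _ ≤ _ := by
        refine Finset.sum_le_sum fun r _ => Finset.sum_le_sum fun s _ => ?_
        by_cases h : r < s
        · simp only [h, if_true]
          exact hpair r s (ne_of_lt h)
        · simp [h]

theorem cntS_le (n l1 l2 a b : ℕ) : cntS n l1 l2 a b ≤ n * n := by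
  unfold cntS
  calc _ ≤ ∑ _i : Fin n, ∑ _j : Fin n, 1 :=
        Finset.sum_le_sum fun i _ => Finset.sum_le_sum fun j _ => by split_ifs <;> omega
    _ = n * n := by simp

/-- Crossing counts with the columns summed first. -/
theorem cntS_swap (n l1 l2 a b : ℕ) : cntS n l1 l2 a b =
    ∑ j : Fin n, ∑ i : Fin n, if i.val ≠ j.val ∧
      Alternate (3 * l1) (3 * i.val + 2) (3 * l2 + 1) (3 * j.val + 2) ∧
      a.testBit i = b.testBit j then 1 else 0 := by
  unfold cntS
  rw [Finset.sum_comm]

/-- The packed crossing vector is what it should be. -/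
theorem pkCnt_eq {n : ℕ} {pop : ℕ → ℕ} {N : ℕ}
    (hpop : ∀ x, x < 2 ^ n → pop x = ∑ j : Fin n, (x.testBit j).toNat)
    {Col Bit NBit : ℕ → ℕ} (hBit : ∀ j, j < n → Bit j = pack (fun b => (b.testBit j).toNat) N)
    (hNBit : ∀ j, j < n → NBit j = pack (fun b => 1 - (b.testBit j).toNat) N)
    {l1 l2 a : ℕ} (ha : a < 2 ^ n)
    (hCol : ∀ i j : Fin n, (Col j).testBit i = decide (i.val ≠ j.val ∧
        Alternate (3 * l1) (3 * i.val + 2) (3 * l2 + 1) (3 * j.val + 2))) :
    pkCnt pop n (2 ^ n - 1) Col Bit NBit a = pack (fun b => cntS n l1 l2 a b) N := by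
  unfold pkCnt
  rw [sumF_eq, Finset.sum_range]
  have hterm : ∀ (j : Fin n) (b : ℕ),
      (∑ i : Fin n, if i.val ≠ j.val ∧
        Alternate (3 * l1) (3 * i.val + 2) (3 * l2 + 1) (3 * j.val + 2) ∧
        a.testBit i = b.testBit j then 1 else 0)
      = pop (Nat.land (Col j) a) * (b.testBit j).toNat
        + pop (Nat.land (Col j) (Nat.xor (2 ^ n - 1) a)) * (1 - (b.testBit j).toNat) := by
    intro j b
    have h1 : pop (Nat.land (Col j) a) = _ := inner_pop hpop (M := Col j) true ha
    have h2 : pop (Nat.land (Col j) (Nat.xor (2 ^ n - 1) a)) = _ :=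
      inner_pop hpop (M := Col j) false ha
    rw [h1, h2]
    have key : ∀ s : Bool, (∑ i : Fin n, if i.val ≠ j.val ∧
        Alternate (3 * l1) (3 * i.val + 2) (3 * l2 + 1) (3 * j.val + 2) ∧
        a.testBit i = s then 1 else 0)
        = ∑ i : Fin n, if (Col j).testBit i = true ∧ s = a.testBit i then 1 else 0 := by
      intro s
      refine Finset.sum_congr rfl fun i _ => ?_
      rw [hCol i j]
      by_cases hc : (i.val ≠ j.val ∧
          Alternate (3 * l1) (3 * i.val + 2) (3 * l2 + 1) (3 * j.val + 2))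
      · rw [decide_eq_true hc]
        by_cases h5 : a.testBit i = s
        · rw [if_pos ⟨hc.1, hc.2, h5⟩, if_pos ⟨rfl, h5.symm⟩]
        · rw [if_neg (fun h => h5 h.2.2), if_neg (fun h => h5 h.2.symm)]
      · rw [decide_eq_false hc]
        rw [if_neg (fun h => hc ⟨h.1, h.2.1⟩), if_neg (by simp)]
    cases hbj : b.testBit j with
    | true =>
      simp only [Bool.toNat_true, mul_one, tsub_self, mul_zero, add_zero]
      exact key true
    | false =>
      simp only [Bool.toNat_false, mul_zero, tsub_zero, mul_one, zero_add]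
      exact key false
  have hsum : pack (fun b => cntS n l1 l2 a b) N
      = pack (fun b => ∑ j : Fin n,
        (pop (Nat.land (Col j) a) * (b.testBit j).toNat
        + pop (Nat.land (Col j) (Nat.xor (2 ^ n - 1) a)) * (1 - (b.testBit j).toNat))) N := by
    refine pack_congr fun b _ => ?_
    rw [cntS_swap]
    exact Finset.sum_congr rfl fun j _ => hterm j b
  rw [hsum, pack_sum]
  refine Finset.sum_congr rfl fun j _ => ?_
  rw [pack_add, pack_smul, pack_smul, ← hBit j j.isLt, ← hNBit j j.isLt]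

/-- The packed agreement vector is what it should be. -/
theorem pkAg_eq {K N : ℕ} {one : ℕ} (hone : one = pack (fun _ => 1) N) {zA ZB : ℕ → ℕ}
    (hZB : ∀ t, t < K → ZB t = pack (fun b => zdig (ZB t) b) N) :
    pkAg K one zA ZB = pack (fun b => ∑ t : Fin K,
      if Nat.beq (zA t) 1 = Nat.beq (zdig (ZB t) b) 1 then 1 else 0) N := by
  unfold pkAg
  rw [sumF_eq, Finset.sum_range, pack_sum]
  refine Finset.sum_congr rfl fun t _ => ?_
  have h1 := hZB t t.isLt
  have hb : ∀ b, zdig (ZB t) b = 0 ∨ zdig (ZB t) b = 1 := fun b => by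
    have := zdig_le (ZB t) b
    omega
  cases h : Nat.beq (zA t) 1 with
  | true =>
    simp only [cond_true]
    refine h1.trans (pack_congr fun b _ => ?_)
    rcases hb b with h0 | h0 <;> simp [h0]
  | false =>
    simp only [cond_false]
    have h2 : pack (fun b => if false = Nat.beq (zdig (ZB t) b) 1 then 1 else 0) N
        + pack (fun b => zdig (ZB t) b) N = one := by
      rw [← pack_add, hone]
      refine pack_congr fun b _ => ?_
      rcases hb b with h0 | h0 <;> simp [h0]
    rw [← h1] at h2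
    omega

/-- From the packed check to the table condition. -/
theorem table_of_packed {n K N : ℕ} (hN : N = 2 ^ n) (hnn : n * n < 128) (hK : K ≤ 128)
    (pop : ℕ → ℕ) (hpop : ∀ x, x < 2 ^ n → pop x = ∑ j : Fin n, (x.testBit j).toNat)
    (Col : ℕ → ℕ → ℕ → ℕ) (I : ℕ → ℕ → ℕ) (Bit NBit : ℕ → ℕ) (Zc : ℕ → ℕ → ℕ) (one high : ℕ)
    (hone : one = pack (fun _ => 1) N) (hhigh : high = pack (fun _ => 128) N)
    (hBit : ∀ j, j < n → Bit j = pack (fun b => (b.testBit j).toNat) N)
    (hNBit : ∀ j, j < n → NBit j = pack (fun b => 1 - (b.testBit j).toNat) N)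
    (hZc : ∀ g t, g < n → t < K → Zc g t = pack (fun b => zdig (Zc g t) b) N)
    (hCol : ∀ l1 l2, l1 ≤ l2 → l2 ≤ n → ∀ i j : Fin n, (Col l1 l2 j).testBit i = decide (i.val ≠ j.val ∧
        Alternate (3 * l1) (3 * i.val + 2) (3 * l2 + 1) (3 * j.val + 2)))
    (hI : ∀ l1 l2, l1 ≤ l2 → l2 ≤ n → ∀ i j : Fin n, (Col l1 l2 j).testBit i = true →
        (I l1 l2).testBit i = true)
    (hZI : ∀ l1 l2, l1 ≤ l2 → l2 ≤ n → ∀ t, t < K → ∀ a, a < 2 ^ n →
        zdig (Zc (l1 % n) t) a = zdig (Zc (l1 % n) t) (a &&& I l1 l2))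
    (hcheck : ∀ l1 l2, l1 ≤ l2 → l2 ≤ n → ∀ a, a < 2 ^ n → a &&& I l1 l2 = a →
        Nat.land (pkCnt pop n (2 ^ n - 1) (Col l1 l2) Bit NBit a + high -
          pkAg K one (fun t => zdig (Zc (l1 % n) t) a) (fun t => Zc (l2 % n) t)) high = high)
    (hn0 : 0 < n) :
    ∀ l1 l2 a b, l1 ≤ l2 → l2 ≤ n → a < 2 ^ n → b < 2 ^ n →
      (∑ t : Fin K, if Nat.beq (zdig (Zc (l1 % n) t) a) 1 = Nat.beq (zdig (Zc (l2 % n) t) b) 1
        then 1 else 0) ≤ cntS n l1 l2 a b := by
  intro l1 l2 a b h12 h2 ha hb
  set a' := a &&& I l1 l2 with ha'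
  have ha'lt : a' < 2 ^ n := by
    rw [ha', Nat.land_comm]; exact Nat.and_lt_two_pow _ ha
  have hc := hcheck l1 l2 h12 h2 a' ha'lt (by rw [ha', Nat.land_assoc, Nat.and_self])
  have hg2 : l2 % n < n := Nat.mod_lt _ hn0
  have hCnt := pkCnt_eq (Col := Col l1 l2) (l1 := l1) (l2 := l2) (a := a') hpop hBit hNBit ha'lt
    (hCol l1 l2 h12 h2)
  have hAg := pkAg_eq (K := K) (N := N) (zA := fun t => zdig (Zc (l1 % n) t) a')
    (ZB := fun t => Zc (l2 % n) t) hone (fun t ht => hZc _ t hg2 ht)
  set AG : ℕ → ℕ := fun b => ∑ t : Fin K,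
      if Nat.beq (zdig (Zc (l1 % n) t) a') 1 = Nat.beq (zdig (Zc (l2 % n) t) b) 1 then 1 else 0
    with hAGdef
  have hAGle : ∀ b, AG b ≤ K := fun b => by
    calc AG b ≤ ∑ _t : Fin K, 1 :=
          Finset.sum_le_sum fun t _ => by split_ifs <;> omega
      _ = K := by simp
  set e : ℕ → ℕ := fun b => cntS n l1 l2 a' b + 128 - AG b with he
  have hpack : pkCnt pop n (2 ^ n - 1) (Col l1 l2) Bit NBit a' + high
      - pkAg K one (fun t => zdig (Zc (l1 % n) t) a') (fun t => Zc (l2 % n) t) = pack e N := by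
    rw [hCnt, hAg, hhigh]
    have h3 : pack e N + pack AG N
        = pack (fun b => cntS n l1 l2 a' b) N + pack (fun _ => 128) N := by
      rw [← pack_add, ← pack_add]
      refine pack_congr fun b _ => ?_
      have := hAGle b
      simp only [he]
      omega
    omega
  rw [hpack] at hc
  have hele : ∀ c, c < N → e c < 256 := by
    intro c _
    have h4 := cntS_le n l1 l2 a' c
    simp only [he]
    omega
  have hbN : b < N := by rw [hN]; exact hb
  have htop := pack_topbit N e hele hbN
  have htop2 := pack_topbit N (fun _ => 128) (by intro _ _; norm_num) hbN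
  have hhb : high.testBit (8 * b + 7) = true := by
    rw [hhigh, htop2]; simp
  have hland : (pack e N).testBit (8 * b + 7) = true := by
    have h5 : (pack e N &&& high).testBit (8 * b + 7) = high.testBit (8 * b + 7) := by
      exact congrArg (fun x => Nat.testBit x (8 * b + 7)) hc
    rw [Nat.testBit_and, hhb, Bool.and_true] at h5
    exact h5
  rw [htop] at hland
  have h128 : 128 ≤ e b := by simpa using hland
  have hfinal : AG b ≤ cntS n l1 l2 a' b := by
    have := hAGle b
    simp only [he] at h128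
    omega
  have hcnt : cntS n l1 l2 a b = cntS n l1 l2 a' b := by
    unfold cntS
    refine Finset.sum_congr rfl fun i _ => Finset.sum_congr rfl fun j _ => ?_
    by_cases hcc : (i.val ≠ j.val ∧
        Alternate (3 * l1) (3 * i.val + 2) (3 * l2 + 1) (3 * j.val + 2))
    · have hb1 : (Col l1 l2 j).testBit i = true := by
        rw [hCol l1 l2 h12 h2 i j]; exact decide_eq_true hcc
      have hi := hI l1 l2 h12 h2 i j hb1
      have ea : a'.testBit i = a.testBit i := by rw [ha', Nat.testBit_and, hi, Bool.and_true]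
      rw [ea]
    · rw [if_neg (fun h => hcc ⟨h.1, h.2.1⟩), if_neg (fun h => hcc ⟨h.1, h.2.1⟩)]
  rw [hcnt]
  have hz : (∑ t : Fin K, if Nat.beq (zdig (Zc (l1 % n) t) a) 1 = Nat.beq (zdig (Zc (l2 % n) t) b) 1
        then 1 else 0) = AG b := by
    simp only [hAGdef]
    refine Finset.sum_congr rfl fun t _ => ?_
    rw [hZI l1 l2 h12 h2 t t.isLt a ha]
  rw [hz]
  exact hfinal

/-- `pack`, by recursion, for evaluation. -/
def packF (v : ℕ → ℕ) : ℕ → ℕ
  | 0 => 0
  | N + 1 => v N * 256 ^ N + packF v N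

theorem pack_eq_packF (v : ℕ → ℕ) (N : ℕ) : pack v N = packF v N := by
  induction N with
  | zero => simp [pack, packF]
  | succ N ih =>
    rw [packF, ← ih]
    unfold pack
    rw [sum_range_succ, add_comm]

end Vale.Agent.Lib.P040
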