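import Vale.Agent.Lib.P040.TwoPagePacked

/-!
The certificate for 3 blue vertices: 1 coordinate functions, found by a SAT solver, for each gap of
the blue vertices, and the kernel check that two stars never agree in more coordinates than they
have crossings.
-/

namespace Vale.Agent.Lib.P040.T3

open Finset

/-- The certificate: columns of the coordinate tables of a gap. -/
def Zloc : ℕ → ℕ
  | 0 => 1103806595329
  | 1 => 16843009
  | _ => 281479271743489

/-- A column of the certificate. -/
def Zc (g t : ℕ) : ℕ := Nat.land (Nat.shiftRight (Zloc g) (64 * t)) 18446744073709551615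

/-- Crossing masks. -/
def ColT : ℕ := 8711228593181149736425326649268832939081928

/-- Bits of the left star that matter. -/
def It : ℕ := 105567084547219

/-- Bits that a gap reads. -/
def Et : ℕ := 98

/-- Bit columns. -/
def BitT : ℕ := 24616085231079133830765347763557993982857404672813039872

/-- Popcounts. -/
def Pt : ℕ := 841031952

/-- a packed vector of ones -/
def one : ℕ := 72340172838076673

/-- a packed vector of top bits -/
def high : ℕ := 9259542123273814144

/-- masks of a pair of gaps -/
def Col (l1 l2 j : ℕ) : ℕ := look ColT 3 ((l1 * 4 + l2) * 3 + j)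
/-- relevant bits -/
def I (l1 l2 : ℕ) : ℕ := look It 3 (l1 * 4 + l2)
/-- bits read by a gap -/
def E (g : ℕ) : ℕ := look Et 3 g
/-- popcount -/
def pop (x : ℕ) : ℕ := look Pt 4 x
/-- a column of bits -/
def Bit (j : ℕ) : ℕ := Nat.land (Nat.shiftRight BitT (64 * j)) 18446744073709551615
/-- a column of complemented bits -/
def NBit (j : ℕ) : ℕ := one - Bit j

/-- words with the bits in `I` only -/
def subs (I : ℕ) : List ℕ := (List.range 8).filter fun a => Nat.beq (Nat.land a I) a

/-- the check for one left word -/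
def checkA (l1 l2 a : ℕ) : Bool :=
  Nat.beq (Nat.land (pkCnt pop 3 (2 ^ 3 - 1) (Col l1 l2) Bit NBit a + high -
    pkAg 1 one (fun t => zdig (Zc (l1 % 3) t) a) (fun t => Zc (l2 % 3) t)) high) high

/-- the main check -/
def checkAll : Bool :=
  (List.range 4).all fun l2 => (List.range (l2 + 1)).all fun l1 =>
    (subs (I l1 l2)).all fun a => checkA l1 l2 a

theorem checkAll_true : checkAll = true := by decide +kernel

theorem hpop : ∀ x, x < 2 ^ 3 → pop x = ∑ j : Fin 3, (x.testBit j).toNat := by decide +kernel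

theorem hBit0 : ∀ j, j < 3 → Bit j = packF (fun b => (b.testBit j).toNat) 8 := by decide +kernel

theorem hNBit0 : ∀ j, j < 3 → NBit j = packF (fun b => 1 - (b.testBit j).toNat) 8 := by
  decide +kernel

theorem hone0 : one = packF (fun _ => 1) 8 := by decide +kernel

theorem hhigh0 : high = packF (fun _ => 128) 8 := by decide +kernel

theorem hZc0 : ∀ g, g < 3 → ∀ t, t < 1 → Zc g t = packF (fun b => zdig (Zc g t) b) 8 := by
  decide +kernel

theorem hCol0 : ∀ l2, l2 < 4 → ∀ l1, l1 < 4 → l1 ≤ l2 → ∀ i j : Fin 3,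
    (Col l1 l2 j).testBit i = decide (i.val ≠ j.val ∧
      Alternate (3 * l1) (3 * i.val + 2) (3 * l2 + 1) (3 * j.val + 2)) := by decide +kernel

theorem hI0 : ∀ l2, l2 < 4 → ∀ l1, l1 < 4 → l1 ≤ l2 → ∀ i j : Fin 3,
    (Col l1 l2 j).testBit i = true → (I l1 l2).testBit i = true := by decide +kernel

theorem hE1 : ∀ g, g < 3 → ∀ t, t < 1 → ∀ a, a < 8 →
    zdig (Zc g t) a = zdig (Zc g t) (Nat.land a (E g)) := by decide +kernel

theorem hE2 : ∀ l2, l2 < 4 → ∀ l1, l1 < 4 → l1 ≤ l2 →
    Nat.land (E (l1 % 3)) (I l1 l2) = E (l1 % 3) := by decide +kernel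

theorem hcheck (l1 l2 : ℕ) (h12 : l1 ≤ l2) (h2 : l2 ≤ 3) (a : ℕ) (ha : a < 2 ^ 3)
    (haI : a &&& I l1 l2 = a) :
    Nat.land (pkCnt pop 3 (2 ^ 3 - 1) (Col l1 l2) Bit NBit a + high -
      pkAg 1 one (fun t => zdig (Zc (l1 % 3) t) a) (fun t => Zc (l2 % 3) t)) high = high := by
  have h0 := checkAll_true
  unfold checkAll at h0
  rw [List.all_eq_true] at h0
  have h1 := h0 l2 (List.mem_range.2 (by omega))
  rw [List.all_eq_true] at h1
  have h3 := h1 l1 (List.mem_range.2 (by omega))
  rw [List.all_eq_true] at h3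
  have h4 := h3 a (by
    unfold subs
    rw [List.mem_filter]
    refine ⟨List.mem_range.2 ha, ?_⟩
    rw [Nat.beq_eq]; exact haI)
  unfold checkA at h4
  rw [Nat.beq_eq] at h4
  exact h4

/-- Every two-page drawing of `K_{m,3}` has at least `1 * zar m` crossings. -/
theorem bound {m : ℕ} (D : TwoPageDrawing m 3) : 1 * zar m ≤ D.crossings :=
  bound_of_coords (K := 1) (fun t l a => Nat.beq (zdig (Zc (l % 3) t) a) 1)
    (table_of_packed (N := 8) (by norm_num) (by norm_num) (by norm_num) pop hpop Col I Bit NBit Zc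
      one high (by rw [pack_eq_packF]; exact hone0) (by rw [pack_eq_packF]; exact hhigh0)
      (fun j hj => by rw [pack_eq_packF]; exact hBit0 j hj)
      (fun j hj => by rw [pack_eq_packF]; exact hNBit0 j hj)
      (fun g t hg ht => by rw [pack_eq_packF]; exact hZc0 g hg t ht)
      (fun l1 l2 h12 h2 i j => hCol0 l2 (by omega) l1 (by omega) h12 i j)
      (fun l1 l2 h12 h2 i j => hI0 l2 (by omega) l1 (by omega) h12 i j)
      (fun l1 l2 h12 h2 t ht a ha => by
        have hg : l1 % 3 < 3 := Nat.mod_lt _ (by norm_num)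
        have hE := hE2 l2 (by omega) l1 (by omega) h12
        rw [hE1 _ hg t ht a (by simpa using ha)]
        conv_rhs => rw [hE1 _ hg t ht (a &&& I l1 l2) (by
          have : a &&& I l1 l2 < 2 ^ 3 := by
            rw [Nat.land_comm]; exact Nat.and_lt_two_pow _ ha
          simpa using this)]
        have h5 : Nat.land (a &&& I l1 l2) (E (l1 % 3)) = Nat.land a (E (l1 % 3)) := by
          show ((a &&& I l1 l2) &&& E (l1 % 3)) = (a &&& E (l1 % 3))
          rw [Nat.land_assoc, Nat.land_comm (I l1 l2)]
          exact congrArg (fun x => a &&& x) hE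
        rw [h5])
      (fun l1 l2 h12 h2 a ha haI => hcheck l1 l2 h12 h2 a ha haI)
      (by norm_num)) D

end Vale.Agent.Lib.P040.T3
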