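import Vale.Agent.Lib.P040.TwoPagePacked

/-!
The certificate for 5 blue vertices: 4 coordinate functions, found by a SAT solver, for each gap of
the blue vertices, and the kernel check that two stars never agree in more coordinates than they
have crossings.
-/

namespace Vale.Agent.Lib.P040.T5

open Finset

/-- The certificate: columns of the coordinate tables of a gap. -/
def Zloc : ℕ → ℕ
  | 0 => 38216917691764702273823873947998129664911866574890062280595785870661030478355563305050406356032919085857239805734925021517751628016721037599248440494435972981487003177783133262134900263443069871564968366955236086905283609830146740619462316660084978735683475558656547689098105848260985089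
  | 1 => 38216917691764702273823873947998129664911866574890062280595785870659612934094267267147644365880274366416007951913589538863153199102669700399607427416645765674273233566383107195255157895547422362132848608915292565543042234351447421094327872806516450459005581663716766620260363215627682049
  | 2 => 2071743259355549985695450136927516103989391403701258090952202860934162352946933229244315918731444639949214969196489407401037485706929315072403445291633277006730569791337856594997547107280300826614471443167450573931502933155291409193659887058341194393394334332933439489
  | 3 => 2071743259355549985695450136927516103989415186146112945322629506245202937583240224988674470085706466956342357079755046537802890539680794171144402305370167072648212073102468117086320818162596337776137425839808060752447082790575596809287203864982268573747491026975653889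
  | _ => 41856446141658319266956389660959189178553053905591171933515795219936668230347115595869565531327351545303931374681996706283732209379534462623931569535497546192595047445282317281834513820900363856706843213659245521166262339726805988392601814014062683074073567140589822836314096544647243673517542080769

/-- A column of the certificate. -/
def Zc (g t : ℕ) : ℕ := Nat.land (Nat.shiftRight (Zloc g) (256 * t)) 115792089237316195423570985008687907853269984665640564039457584007913129639935

/-- Crossing masks. -/
def ColT : ℕ := 4020773127937359465055111688531261224098255363763671986560634761713918511633233937179279223377253657019600311775851364912792051951116428479647504233797261962465603077158657616450695750004906513866393948694342894971387194143353417458320535124448431394527930750528887426080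

/-- Bits of the left star that matter. -/
def It : ℕ := 718357285125153157172779447416439014307333793030552015

/-- Bits that a gap reads. -/
def Et : ℕ := 7989134

/-- Bit columns. -/
def BitT : ℕ := 81630840742465875152354826096973219910468047713884558984965460027796119186422606084684409082373396695368592284653929528905951998794893472859392566331000319674664666372446397679507315069380546957845566908793141220048170164170887112133736097714368364436098294656909978973689918922661860671689746411002423655445899606268280545188980700324472153926244370664777917028886110891513493848320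

/-- Popcounts. -/
def Pt : ℕ := 112004398439102515831086157106144944400

/-- a packed vector of ones -/
def one : ℕ := 454086624460063511464984254936031011189294057512315937409637584344757371137

/-- a packed vector of top bits -/
def high : ℕ := 58123087930888129467517984631811969432229639361576439988433610796128943505536

/-- masks of a pair of gaps -/
def Col (l1 l2 j : ℕ) : ℕ := look ColT 5 ((l1 * 6 + l2) * 5 + j)
/-- relevant bits -/
def I (l1 l2 : ℕ) : ℕ := look It 5 (l1 * 6 + l2)
/-- bits read by a gap -/
def E (g : ℕ) : ℕ := look Et 5 g
/-- popcount -/
def pop (x : ℕ) : ℕ := look Pt 4 x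
/-- a column of bits -/
def Bit (j : ℕ) : ℕ := Nat.land (Nat.shiftRight BitT (256 * j)) 115792089237316195423570985008687907853269984665640564039457584007913129639935
/-- a column of complemented bits -/
def NBit (j : ℕ) : ℕ := one - Bit j

/-- words with the bits in `I` only -/
def subs (I : ℕ) : List ℕ := (List.range 32).filter fun a => Nat.beq (Nat.land a I) a

/-- the check for one left word -/
def checkA (l1 l2 a : ℕ) : Bool :=
  Nat.beq (Nat.land (pkCnt pop 5 (2 ^ 5 - 1) (Col l1 l2) Bit NBit a + high -
    pkAg 4 one (fun t => zdig (Zc (l1 % 5) t) a) (fun t => Zc (l2 % 5) t)) high) high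

/-- the main check -/
def checkAll : Bool :=
  (List.range 6).all fun l2 => (List.range (l2 + 1)).all fun l1 =>
    (subs (I l1 l2)).all fun a => checkA l1 l2 a

theorem checkAll_true : checkAll = true := by decide +kernel

theorem hpop : ∀ x, x < 2 ^ 5 → pop x = ∑ j : Fin 5, (x.testBit j).toNat := by decide +kernel

theorem hBit0 : ∀ j, j < 5 → Bit j = packF (fun b => (b.testBit j).toNat) 32 := by decide +kernel

theorem hNBit0 : ∀ j, j < 5 → NBit j = packF (fun b => 1 - (b.testBit j).toNat) 32 := by
  decide +kernel

theorem hone0 : one = packF (fun _ => 1) 32 := by decide +kernel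

theorem hhigh0 : high = packF (fun _ => 128) 32 := by decide +kernel

theorem hZc0 : ∀ g, g < 5 → ∀ t, t < 4 → Zc g t = packF (fun b => zdig (Zc g t) b) 32 := by
  decide +kernel

theorem hCol0 : ∀ l2, l2 < 6 → ∀ l1, l1 < 6 → l1 ≤ l2 → ∀ i j : Fin 5,
    (Col l1 l2 j).testBit i = decide (i.val ≠ j.val ∧
      Alternate (3 * l1) (3 * i.val + 2) (3 * l2 + 1) (3 * j.val + 2)) := by decide +kernel

theorem hI0 : ∀ l2, l2 < 6 → ∀ l1, l1 < 6 → l1 ≤ l2 → ∀ i j : Fin 5,
    (Col l1 l2 j).testBit i = true → (I l1 l2).testBit i = true := by decide +kernel

theorem hE1 : ∀ g, g < 5 → ∀ t, t < 4 → ∀ a, a < 32 →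
    zdig (Zc g t) a = zdig (Zc g t) (Nat.land a (E g)) := by decide +kernel

theorem hE2 : ∀ l2, l2 < 6 → ∀ l1, l1 < 6 → l1 ≤ l2 →
    Nat.land (E (l1 % 5)) (I l1 l2) = E (l1 % 5) := by decide +kernel

theorem hcheck (l1 l2 : ℕ) (h12 : l1 ≤ l2) (h2 : l2 ≤ 5) (a : ℕ) (ha : a < 2 ^ 5)
    (haI : a &&& I l1 l2 = a) :
    Nat.land (pkCnt pop 5 (2 ^ 5 - 1) (Col l1 l2) Bit NBit a + high -
      pkAg 4 one (fun t => zdig (Zc (l1 % 5) t) a) (fun t => Zc (l2 % 5) t)) high = high := by
  have h0 := checkAll_true
  unfold checkAll at h0
  rw [List.all_eq_true] at h0
  have h1 := h0 l2 (List.mem_range.2 (by omega))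
  rw [List.all_eq_true] at h1
  have h3 := h1 l1 (List.mem_range.2 (by omega))
  rw [List.all_eq_true] at h3
  have h4 := h3 a (by
    unfold subs
    rw [List.mem_filter]
    refine ⟨List.mem_range.2 ha, ?_⟩
    rw [Nat.beq_eq]; exact haI)
  unfold checkA at h4
  rw [Nat.beq_eq] at h4
  exact h4

/-- Every two-page drawing of `K_{m,5}` has at least `4 * zar m` crossings. -/
theorem bound {m : ℕ} (D : TwoPageDrawing m 5) : 4 * zar m ≤ D.crossings :=
  bound_of_coords (K := 4) (fun t l a => Nat.beq (zdig (Zc (l % 5) t) a) 1)
    (table_of_packed (N := 32) (by norm_num) (by norm_num) (by norm_num) pop hpop Col I Bit NBit Zc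
      one high (by rw [pack_eq_packF]; exact hone0) (by rw [pack_eq_packF]; exact hhigh0)
      (fun j hj => by rw [pack_eq_packF]; exact hBit0 j hj)
      (fun j hj => by rw [pack_eq_packF]; exact hNBit0 j hj)
      (fun g t hg ht => by rw [pack_eq_packF]; exact hZc0 g hg t ht)
      (fun l1 l2 h12 h2 i j => hCol0 l2 (by omega) l1 (by omega) h12 i j)
      (fun l1 l2 h12 h2 i j => hI0 l2 (by omega) l1 (by omega) h12 i j)
      (fun l1 l2 h12 h2 t ht a ha => by
        have hg : l1 % 5 < 5 := Nat.mod_lt _ (by norm_num)
        have hE := hE2 l2 (by omega) l1 (by omega) h12
        rw [hE1 _ hg t ht a (by simpa using ha)]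
        conv_rhs => rw [hE1 _ hg t ht (a &&& I l1 l2) (by
          have : a &&& I l1 l2 < 2 ^ 5 := by
            rw [Nat.land_comm]; exact Nat.and_lt_two_pow _ ha
          simpa using this)]
        have h5 : Nat.land (a &&& I l1 l2) (E (l1 % 5)) = Nat.land a (E (l1 % 5)) := by
          show ((a &&& I l1 l2) &&& E (l1 % 5)) = (a &&& E (l1 % 5))
          rw [Nat.land_assoc, Nat.land_comm (I l1 l2)]
          exact congrArg (fun x => a &&& x) hE
        rw [h5])
      (fun l1 l2 h12 h2 a ha haI => hcheck l1 l2 h12 h2 a ha haI)
      (by norm_num)) D

end Vale.Agent.Lib.P040.T5
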